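import Vale.Agent.P070.Masa
import Vale.Agent.P133.Split

/-!
A minimal projection in the masa makes the algebra elementary.
-/

universe u

set_option linter.unusedSectionVars false

namespace Vale.Agent.P070

open InnerProductSpace ComplexOrder
open Vale.Agent.P133

variable {A : Type u} [NonUnitalCStarAlgebra A] [PartialOrder A] [StarOrderedRing A]
variable {C : NonUnitalStarSubalgebra ℂ A}
variable {H : Type u} [NormedAddCommGroup H] [InnerProductSpace ℂ H] [CompleteSpace H]
variable {π : A →⋆ₙₐ[ℂ] (H →L[ℂ] H)}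

/-- A self-adjoint element below an atom of `C` is a multiple of an idempotent. -/
lemma scaled_idem {Q : Set A} {a : A}
    (hA : ∀ p ∈ Q, ∀ q ∈ Q, 0 ≤ p → 0 ≤ q → RMem a p → RMem a q → p * q = 0 → p = 0 ∨ q = 0)
    {x : A} (hQ : ∀ f : ℝ → ℝ, cfcₙ f x ∈ Q) (hxs : IsSelfAdjoint x) (hax : RMem a x) (hx0 : x ≠ 0) :
    ∃ t : ℝ, t ≠ 0 ∧ x * x = t • x := by
  obtain ⟨t, ht, ht0⟩ : ∃ t ∈ quasispectrum ℝ x, t ≠ 0 := by
    by_contra h
    push Not at h
    refine hx0 ?_
    rw [← cfcₙ_id' ℝ x hxs, ← cfcₙ_const_zero ℝ x]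
    exact cfcₙ_congr fun s hs => h s hs
  have huniq : ∀ s ∈ quasispectrum ℝ x, s ≠ 0 → s = t := by
    intro s hs hs0
    by_contra hst
    obtain ⟨δ, hδ, h1, h2, h3⟩ : ∃ δ : ℝ, 0 < δ ∧ δ ≤ |s| ∧ δ ≤ |t| ∧ δ + δ ≤ |s - t| := by
      refine ⟨min (min |s| |t|) (|s - t| / 2), ?_, (min_le_left _ _).trans (min_le_left _ _),
        (min_le_left _ _).trans (min_le_right _ _), ?_⟩
      · exact lt_min (lt_min (abs_pos.2 hs0) (abs_pos.2 ht0))
          (half_pos (abs_pos.2 (sub_ne_zero.2 hst)))
      · linarith [min_le_right (min |s| |t|) (|s - t| / 2)]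
    let g : ℝ → ℝ → ℝ := fun u r => max (δ - |r - u|) 0
    have hg : ∀ u, Continuous (g u) := fun u => by fun_prop
    have hg0 : ∀ u, δ ≤ |u| → g u 0 = 0 := fun u hu => by
      simp only [g, zero_sub, abs_neg]
      exact max_eq_right (by linarith)
    have hne : ∀ u ∈ quasispectrum ℝ x, δ ≤ |u| → cfcₙ (g u) x ≠ 0 := fun u hu hu' h => by
      have := norm_apply_le_norm_cfcₙ (g u) x hu (hg u).continuousOn (hg0 u hu') hxs
      rw [h, norm_zero] at this
      simp [g, max_eq_left hδ.le] at this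
      linarith
    rcases hA _ (hQ (g s)) _ (hQ (g t))
      (cfcₙ_nonneg fun r _ => le_max_right _ _) (cfcₙ_nonneg fun r _ => le_max_right _ _)
      (hax.trans (rmem_cfcₙ _ _)) (hax.trans (rmem_cfcₙ _ _)) (by
        rw [← cfcₙ_mul _ _ x (hg s).continuousOn (hg0 s h1) (hg t).continuousOn (hg0 t h2),
          ← cfcₙ_const_zero ℝ x]
        refine cfcₙ_congr fun r _ => ?_
        simp only [g]
        rcases le_total δ |r - s| with h | h
        · rw [max_eq_right (by linarith), zero_mul]
        · have : |s - t| ≤ |r - s| + |r - t| := by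
            rw [abs_sub_comm r s]; exact abs_sub_le s r t
          rw [max_eq_right (show δ - |r - t| ≤ 0 by linarith), mul_zero]) with h | h
    · exact hne s hs h1 h
    · exact hne t ht h2 h
  refine ⟨t, ht0, ?_⟩
  conv_lhs => rw [← cfcₙ_id' ℝ x hxs]
  conv_rhs => arg 2; rw [← cfcₙ_id' ℝ x hxs]
  rw [← cfcₙ_mul _ _ x (by fun_prop) (by simp) (by fun_prop) (by simp),
    ← cfcₙ_smul _ _ x (by fun_prop) (by simp)]
  refine cfcₙ_congr fun s hs => ?_
  rcases eq_or_ne s 0 with rfl | hs0
  · simp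
  · simp [huniq s hs hs0]

lemma proj_nonneg {p : A} (hp : IsSelfAdjoint p) (hpp : p * p = p) : 0 ≤ p := by
  have := star_mul_self_nonneg p
  rwa [hp.star_eq, hpp] at this

lemma exists_minimal (hC : IsRegularMasa C) {a : A} (haC : a ∈ C) (ha : 0 ≤ a) (ha0 : a ≠ 0)
    (hA : ∀ p ∈ C, ∀ q ∈ C, 0 ≤ p → 0 ≤ q → RMem a p → RMem a q → p * q = 0 → p = 0 ∨ q = 0) :
    ∃ e ∈ C, star e = e ∧ e * e = e ∧ e ≠ 0 ∧ ∀ x : A, ∃ z : ℂ, e * x * e = z • e := by
  obtain ⟨t, ht, hat⟩ := scaled_idem (Q := C) hA (hC.cfcₙ_mem haC) ha.isSelfAdjoint (rmem_self a) ha0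
  obtain ⟨e, he⟩ : ∃ e, e = ((t⁻¹ : ℝ) : ℂ) • a := ⟨_, rfl⟩
  have heC : e ∈ C := he ▸ SMulMemClass.smul_mem _ haC
  have hes : star e = e := by
    rw [he, star_smul, ha.isSelfAdjoint.star_eq, Complex.star_def, Complex.conj_ofReal]
  have hee : e * e = e := by
    rw [he, smul_mul_smul_comm, hat, ← Complex.coe_smul, smul_smul]
    congr 1
    have : (t : ℂ) ≠ 0 := by exact_mod_cast ht
    push_cast
    field_simp
  have he0 : e ≠ 0 := by
    rw [he]
    exact smul_ne_zero (by simp [ht]) ha0
  have hme : RMem a e := he ▸ (rmem_self a).smul _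
  have hsa : ∀ c ∈ C, star c = c → ∃ z : ℂ, c * e = z • e := by
    intro c hc hcs
    have hce : c * e = e * c := hC.1 c hc e heC
    have hxs : IsSelfAdjoint (c * e) := by
      show star (c * e) = c * e
      rw [star_mul, hes, hcs, hce]
    have hmx : RMem a (c * e) := hce ▸ hme.trans (rmem_mul e c)
    rcases eq_or_ne (c * e) 0 with h0 | h0
    · exact ⟨0, by rw [h0, zero_smul]⟩
    obtain ⟨s, hs, hxx⟩ := scaled_idem (Q := C) hA (hC.cfcₙ_mem (mul_mem hc heC)) hxs hmx h0
    obtain ⟨p, hp⟩ : ∃ p, p = ((s⁻¹ : ℝ) : ℂ) • (c * e) := ⟨_, rfl⟩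
    have hpC : p ∈ C := hp ▸ SMulMemClass.smul_mem _ (mul_mem hc heC)
    have hps : IsSelfAdjoint p := by
      show star p = p
      rw [hp, star_smul, hxs.star_eq, Complex.star_def, Complex.conj_ofReal]
    have hpp : p * p = p := by
      rw [hp, smul_mul_smul_comm, hxx, ← Complex.coe_smul, smul_smul]
      congr 1
      have : (s : ℂ) ≠ 0 := by exact_mod_cast hs
      push_cast
      field_simp
    have hpe : p * e = p := by rw [hp, smul_mul_assoc, mul_assoc, hee]
    have hep : e * p = p := by rw [← hC.1 p hpC e heC, hpe]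
    have hq : (e - p) * (e - p) = e - p := by
      rw [sub_mul, mul_sub, mul_sub, hee, hpe, hep, hpp]; abel
    have hqs : IsSelfAdjoint (e - p) := by
      show star (e - p) = e - p
      rw [star_sub, hes, hps.star_eq]
    have hmq : RMem a (e - p) := by
      have := hme.trans (rmem_mul e (e - p))
      rwa [mul_sub, hee, hep] at this
    rcases hA p hpC (e - p) (sub_mem heC hpC) (proj_nonneg hps hpp) (proj_nonneg hqs hq)
      (hp ▸ hmx.smul _) hmq (by rw [mul_sub, hpe, hpp, sub_self]) with h | h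
    · rw [hp, smul_eq_zero] at h
      exact absurd (h.resolve_left (by simp [hs])) h0
    · refine ⟨(s : ℂ), ?_⟩
      calc c * e = (s : ℂ) • p := by
            rw [hp, smul_smul, ← Complex.ofReal_mul, mul_inv_cancel₀ hs, Complex.ofReal_one,
              one_smul]
        _ = (s : ℂ) • e := by rw [← sub_eq_zero.1 h]
  have hall : ∀ c ∈ C, ∃ z : ℂ, c * e = z • e := by
    intro c hc
    obtain ⟨z₁, h1⟩ := hsa (c + star c) (add_mem hc (StarMemClass.star_mem hc))
      (by rw [star_add, star_star, add_comm])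
    obtain ⟨z₂, h2⟩ := hsa (Complex.I • (c - star c))
      (SMulMemClass.smul_mem _ (sub_mem hc (StarMemClass.star_mem hc)))
      (by rw [star_smul, star_sub, star_star, Complex.star_def, Complex.conj_I, neg_smul,
        ← smul_neg, neg_sub])
    refine ⟨(2 : ℂ)⁻¹ * z₁ - Complex.I * (2 : ℂ)⁻¹ * z₂, ?_⟩
    have h3 : c = (2 : ℂ)⁻¹ • (c + star c)
        - (Complex.I * (2 : ℂ)⁻¹) • (Complex.I • (c - star c)) := by
      match_scalars <;> ring_nf <;> simp [Complex.I_sq] <;> ring
    conv_lhs => rw [h3]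
    rw [sub_mul, smul_mul_assoc, smul_mul_assoc (Complex.I * _), h1, h2, smul_smul, smul_smul,
      ← sub_smul]
  refine ⟨e, heC, hes, hee, he0, fun x => ?_⟩
  have hy : e * x * e ∈ C := hC.2.1 _ fun c hc => by
    obtain ⟨z, hz⟩ := hall c hc
    have hz' : e * c = z • e := by rw [← hC.1 c hc e heC, hz]
    rw [show e * x * e * c = e * x * (e * c) by simp [mul_assoc],
      show c * (e * x * e) = (c * e) * x * e by simp [mul_assoc], hz, hz']
    simp [mul_smul_comm, smul_mul_assoc]
  obtain ⟨z, hz⟩ := hall _ hy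
  exact ⟨z, by rw [← hz, mul_assoc _ e e, hee]⟩

/-- If the range contains a rank one projection, the algebra is elementary. -/
theorem elementary_of_minimal (hN : PropertyN A)
    (hπ : IsIrreducibleRep π) {e : A} (hes : star e = e) (hee : e * e = e)
    (he0 : e ≠ 0) (hmin : ∀ x : A, ∃ z : ℂ, e * x * e = z • e) :
    IsElementary A := by
  classical
  obtain ⟨z₀, hez₀⟩ : ∃ z₀, π e z₀ ≠ 0 := by
    by_contra h
    push Not at h
    exact he0 (faithful hN hπ (by rw [map_zero]; exact ContinuousLinearMap.ext h))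
  obtain ⟨ζ, hζ, heζ⟩ : ∃ ζ : H, ‖ζ‖ = 1 ∧ π e ζ = ζ := by
    refine ⟨((‖π e z₀‖⁻¹ : ℝ) : ℂ) • π e z₀, ?_, by rw [map_smul, ← rep_mul, hee]⟩
    rw [norm_smul, Complex.norm_real, norm_inv, norm_norm,
      inv_mul_cancel₀ (norm_ne_zero_iff.2 hez₀)]
  have hζ0 : ζ ≠ 0 := fun h => by simp [h] at hζ
  have he : ∀ v, π e v = ⟪ζ, v⟫_ℂ • ζ := by
    intro v
    have hmem : π e v ∈ Submodule.span ℂ {ζ} := by
      refine closure_minimal (s := Set.range fun a => π a ζ)
        (t := {w : H | π e w ∈ (Submodule.span ℂ {ζ} : Submodule ℂ H)}) ?_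
        ((Submodule.closed_of_finiteDimensional _).preimage (π e).continuous)
        (orbit_dense hπ hζ0 v)
      rintro _ ⟨a, rfl⟩
      obtain ⟨z, hz⟩ := hmin a
      show π e (π a ζ) ∈ (Submodule.span ℂ {ζ} : Submodule ℂ H)
      rw [show π a ζ = π a (π e ζ) by rw [heζ], ← rep_mul, ← rep_mul, hz, map_smul, smul_apply,
        heζ]
      exact Submodule.smul_mem _ _ (Submodule.mem_span_singleton_self ζ)
    obtain ⟨z, hz⟩ := Submodule.mem_span_singleton.1 hmem
    have hz1 : ⟪ζ, v⟫_ℂ = z := by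
      conv_lhs => arg 2; rw [← heζ]
      rw [← hes, rep_adj, ← hz, inner_smul_right, inner_self_eq_norm_sq_to_K, hζ]
      simp
    rw [hz1, hz]
  have hclosed : IsClosed (Set.range π) :=
    (AddMonoidHomClass.isometry_of_norm π (rep_norm hN hπ)).isClosedEmbedding.isClosed_range
  have hrank : ∀ x y : H, rankOne ℂ x y ∈ Set.range π := by
    intro x y
    refine closure_minimal (s := Set.range (Prod.map (fun a => π a ζ) (fun b => π b ζ)))
      (t := {p : H × H | rankOne ℂ p.1 p.2 ∈ Set.range π}) ?_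
      (hclosed.preimage (show Continuous fun p : H × H => (rankOne ℂ p.1 p.2 : H →L[ℂ] H) by
        
        exact (ContinuousLinearMap.smulRightL ℂ H H).continuous₂.comp
          (((innerSL ℂ).continuous.comp continuous_snd).prodMk continuous_fst)))
      (((orbit_dense hπ hζ0).prodMap (orbit_dense hπ hζ0)) (x, y))
    rintro _ ⟨⟨a, b⟩, rfl⟩
    refine ⟨a * e * star b, ContinuousLinearMap.ext fun v => ?_⟩
    rw [rankOne_apply, rep_mul, rep_mul, he, map_smul]
    simp only [Prod.map_fst, Prod.map_snd]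
    rw [← rep_adj (π := π) (star b), star_star]
  have hsum : ∀ {ι : Type u} [Fintype ι] (x y : ι → H),
      ∑ i, rankOne ℂ (x i) (y i) ∈ Set.range π := fun x y => by
    choose a ha using fun i => hrank (x i) (y i)
    exact ⟨∑ i, a i, by rw [map_sum]; exact Finset.sum_congr rfl fun i _ => ha i⟩
  have hsub : ∀ T : H →L[ℂ] H, IsCompactOperator T → T ∈ Set.range π := by
    intro T hT
    rw [← hclosed.closure_eq]
    refine Metric.mem_closure_iff.2 fun ε hε => ?_
    obtain ⟨K, hK, hKsub⟩ := hT.image_closedBall_subset_compact (f := (T : H →ₗ[ℂ] H)) 1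
    obtain ⟨t, ht, htK⟩ := Metric.totallyBounded_iff.1 hK.totallyBounded (ε / 2) (half_pos hε)
    set W := Submodule.span ℂ t with hW
    have : FiniteDimensional ℂ W := FiniteDimensional.span_of_finite ℂ ht
    have : CompleteSpace W := FiniteDimensional.complete ℂ W
    set bW := stdOrthonormalBasis ℂ W
    have hPT : W.starProjection ∘L T =
        ∑ i, rankOne ℂ (bW i : H) (ContinuousLinearMap.adjoint T (bW i : H)) := by
      ext v
      simp [bW.starProjection_eq_sum_rankOne, ContinuousLinearMap.adjoint_inner_left]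
    refine ⟨W.starProjection ∘L T, ?_, ?_⟩
    · rw [hPT]
      choose a ha using fun i => hrank (bW i : H) (ContinuousLinearMap.adjoint T (bW i : H))
      exact ⟨∑ i, a i, by rw [map_sum]; exact Finset.sum_congr rfl fun i _ => ha i⟩
    rw [dist_eq_norm]
    refine lt_of_le_of_lt (ContinuousLinearMap.opNorm_le_of_unit_norm (half_pos hε).le ?_)
      (half_lt_self hε)
    intro v hv
    obtain ⟨y, hy, hyv⟩ : ∃ y ∈ t, T v ∈ Metric.ball y (ε / 2) := by
      simpa using htK (hKsub ⟨v, by simp [hv], rfl⟩)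
    rw [sub_apply, ContinuousLinearMap.comp_apply]
    have hyW : W.starProjection y = y :=
      Submodule.starProjection_eq_self_iff.2 (Submodule.subset_span hy)
    calc ‖T v - W.starProjection (T v)‖ = ‖Wᗮ.starProjection (T v - y)‖ := by
          rw [Submodule.starProjection_orthogonal_val, map_sub, hyW]; congr 1; abel
      _ ≤ ‖T v - y‖ := Submodule.norm_starProjection_apply_le _ _
      _ ≤ ε / 2 := by rw [← dist_eq_norm]; exact (Metric.mem_ball.1 hyv).le
  have hpos : ∀ b : A, 0 ≤ b → IsCompactOperator (π b) := by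
    intro b hb
    set c := CFC.sqrt b with hc
    have hcs : star c = c := (IsSelfAdjoint.of_nonneg (CFC.sqrt_nonneg b)).star_eq
    have hcc : c * c = b := CFC.sqrt_mul_sqrt_self b hb
    suffices hcomp : IsCompactOperator (π c) by
      rw [← hcc, map_mul]
      exact hcomp.clm_comp (π c)
    by_contra hnc
    obtain ⟨δ, hδ, hδv⟩ : ∃ δ : ℝ, 0 < δ ∧ ∀ t : Finset H, ∃ v : H, ‖v‖ ≤ 1 ∧
        (∀ w ∈ t, ⟪w, v⟫_ℂ = 0) ∧ δ ≤ ‖π c v‖ := by
      by_contra h
      push Not at h
      choose t ht using fun n : ℕ => h (1 / ((n : ℝ) + 1)) (by positivity)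
      let P : ℕ → H →L[ℂ] H := fun n => (Submodule.span ℂ (t n : Set H)).starProjection
      refine hnc (isCompactOperator_of_tendsto (l := Filter.atTop)
        (F := fun n => π c ∘L P n) ?_ (Filter.Eventually.of_forall fun n => ?_))
      · refine tendsto_iff_norm_sub_tendsto_zero.2 (squeeze_zero (fun _ => norm_nonneg _) ?_
          tendsto_one_div_add_atTop_nhds_zero_nat)
        intro n
        refine ContinuousLinearMap.opNorm_le_of_unit_norm (by positivity) fun v hv => ?_
        set W := Submodule.span ℂ (t n : Set H)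
        have h1 : ‖Wᗮ.starProjection v‖ ≤ 1 :=
          (Submodule.norm_starProjection_apply_le _ _).trans hv.le
        have h2 := ht n (Wᗮ.starProjection v) h1 fun w hw =>
          Submodule.inner_right_of_mem_orthogonal (Submodule.subset_span hw)
            (Submodule.starProjection_apply_mem _ _)
        rw [sub_apply, ContinuousLinearMap.comp_apply, norm_sub_rev, ← map_sub,
          show P n = W.starProjection from rfl, ← Submodule.starProjection_orthogonal_val]
        exact h2.le
      · have hc1 : IsCompactOperator (Submodule.span ℂ (t n : Set H)).subtypeL :=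
          isCompactOperator_of_locallyCompactSpace_rng _
        exact (hc1.clm_comp (π c)).comp_clm
          (Submodule.span ℂ (t n : Set H)).orthogonalProjectionOnto
    obtain ⟨f, hf, hfe⟩ : ((qstates A ∩ {f | δ ^ 2 ≤ (f b).re}) ∩
        ⋂ a : A, {f : A → ℂ | f (star a * e * a) = 0}).Nonempty := by
      refine (isCompact_qstates.inter_right
        (isClosed_le continuous_const (by fun_prop))).inter_iInter_nonempty _
        (fun a => isClosed_eq (by fun_prop) continuous_const) fun u => ?_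
      obtain ⟨v, hv, hvt, hvd⟩ := hδv (u.image fun a => π (star a) ζ)
      refine ⟨fun a => ⟪v, π a v⟫_ℂ, ⟨vec_mem_qstates π hv, ?_⟩,
        Set.mem_iInter₂.2 fun a ha => ?_⟩
      · show δ ^ 2 ≤ (⟪v, π b v⟫_ℂ).re
        rw [← hcc]
        nth_rw 1 [← hcs]
        rw [rep_sq, Complex.ofReal_re]
        gcongr
      · show ⟪v, π (star a * e * a) v⟫_ℂ = 0
        have h0 := hvt _ (Finset.mem_image_of_mem _ ha)
        rw [rep_adj] at h0
        rw [rep_mul, rep_mul, he, h0, zero_smul, map_zero, inner_zero_right]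
    have hnn : ∀ a : A, 0 ≤ star a * e * a :=
      fun a => star_left_conjugate_nonneg (proj_nonneg hes hee) a
    obtain ⟨H', i1, i2, i3, σ, ξ, hσ, -, hξ0, hξb, hd⟩ :=
      exists_irrep (fun a : A => -(star a * e * a)) (fun _ => 0) (fun a g hg => by
          rw [show -(star a * e * a) = (-1 : ℂ) • (star a * e * a) from (neg_one_smul ℂ _).symm,
            hg.2.1]
          have := (Complex.le_def.1 (hg.2.2.1 _ (hnn a))).1
          simp at this ⊢
          exact this)
        b hf.1 (fun a => by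
          rw [show -(star a * e * a) = (-1 : ℂ) • (star a * e * a) from (neg_one_smul ℂ _).symm,
            hf.1.2.1, Set.mem_iInter.1 hfe a]
          simp) ((sq_pos_of_pos hδ).trans_le hf.2)
    refine he0 (faithful hN hσ ?_)
    rw [map_zero]
    refine ContinuousLinearMap.ext fun w => ?_
    refine closure_minimal (s := Set.range fun a => σ a ξ) ?_
      (isClosed_eq (σ e).continuous continuous_const) (hd w)
    rintro _ ⟨a, rfl⟩
    have h1 := hξ0 a
    rw [show star a * e * a = star (e * a) * (e * a) by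
      rw [star_mul, hes, ← mul_assoc, mul_assoc (star a) e e, hee], map_neg, neg_apply,
      inner_neg_right, rep_sq, Complex.neg_re, Complex.ofReal_re, neg_eq_zero] at h1
    show σ e (σ a ξ) = 0
    rw [← rep_mul]
    exact norm_eq_zero.1 ((pow_eq_zero_iff two_ne_zero).1 h1)
  refine ⟨H, _, _, inferInstance, π, faithful hN hπ, Set.Subset.antisymm ?_ hsub⟩
  rintro _ ⟨a, rfl⟩
  obtain ⟨x, hx, -, hax⟩ := CStarAlgebra.exists_sum_four_nonneg a
  show π a ∈ compactOperator (RingHom.id ℂ) H H
  rw [hax, map_sum]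
  exact Submodule.sum_mem _ fun i _ => by
    rw [map_smul]
    exact Submodule.smul_mem _ _ (hpos _ (hx i))

end Vale.Agent.P070
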