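import Vale.Agent.P070.Tree
import Vale.Agent.P070.Isolated

/-!
Binary branching of regions: atoms, branch vectors, and small regions.
-/

universe u

set_option linter.unusedSectionVars false

namespace Vale.Agent.P070

open InnerProductSpace ComplexOrder Cardinal
open Vale.Agent.P133

variable {A : Type u} [NonUnitalCStarAlgebra A] [PartialOrder A] [StarOrderedRing A]
variable {H : Type u} [NormedAddCommGroup H] [InnerProductSpace ℂ H] [CompleteSpace H]
variable {π : A →⋆ₙₐ[ℂ] (H →L[ℂ] H)}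

variable (A) in
/-- Every nonzero positive element dominates two orthogonal ones. -/
def Branches : Prop :=
  ∀ a : A, 0 ≤ a → a ≠ 0 → ∃ a₁ a₂ : A, 0 ≤ a₁ ∧ 0 ≤ a₂ ∧ a₁ ≠ 0 ∧ a₂ ≠ 0 ∧
    a₁ * a₂ = 0 ∧ RMem a a₁ ∧ RMem a a₂

lemma exists_atom {a : A} (ha : 0 ≤ a) (ha0 : a ≠ 0)
    (hA : ∀ p q : A, 0 ≤ p → 0 ≤ q → RMem a p → RMem a q → p * q = 0 → p = 0 ∨ q = 0) :
    ∃ e : A, star e = e ∧ e * e = e ∧ e ≠ 0 ∧ ∀ x : A, ∃ z : ℂ, e * x * e = z • e := by
  have hA' : ∀ p ∈ (Set.univ : Set A), ∀ q ∈ (Set.univ : Set A), 0 ≤ p → 0 ≤ q → RMem a p →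
      RMem a q → p * q = 0 → p = 0 ∨ q = 0 := fun p _ q _ => hA p q
  obtain ⟨t, ht, hat⟩ := scaled_idem hA' (fun _ => trivial) ha.isSelfAdjoint (rmem_self a) ha0
  obtain ⟨e, he⟩ : ∃ e, e = ((t⁻¹ : ℝ) : ℂ) • a := ⟨_, rfl⟩
  have hes : star e = e := by
    rw [he, star_smul, ha.isSelfAdjoint.star_eq, Complex.star_def, Complex.conj_ofReal]
  have hee : e * e = e := by
    rw [he, smul_mul_smul_comm, hat, ← Complex.coe_smul, smul_smul]
    congr 1
    have : (t : ℂ) ≠ 0 := by exact_mod_cast ht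
    push_cast
    field_simp
  have he0 : e ≠ 0 := by
    rw [he]
    exact smul_ne_zero (by simp [ht]) ha0
  have hme : RMem a e := he ▸ (rmem_self a).smul _
  have hsa : ∀ y : A, star y = y → ∃ z : ℂ, e * y * e = z • e := by
    intro y hy
    obtain ⟨x, hxd⟩ : ∃ x, x = e * y * e := ⟨_, rfl⟩
    have hxs : IsSelfAdjoint x := by
      show star x = x
      rw [hxd, star_mul, star_mul, hes, hy, mul_assoc]
    have hex : e * x = x := by rw [hxd, ← mul_assoc, ← mul_assoc, hee]
    have hxe : x * e = x := by rw [hxd, mul_assoc, hee]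
    have hmx : RMem a x := hex ▸ hme.trans (rmem_mul e x)
    rw [← hxd]
    rcases eq_or_ne x 0 with h0 | h0
    · exact ⟨0, by rw [h0, zero_smul]⟩
    obtain ⟨s, hs, hxx⟩ := scaled_idem hA' (fun _ => trivial) hxs hmx h0
    obtain ⟨p, hp⟩ : ∃ p, p = ((s⁻¹ : ℝ) : ℂ) • x := ⟨_, rfl⟩
    have hps : IsSelfAdjoint p := by
      show star p = p
      rw [hp, star_smul, hxs.star_eq, Complex.star_def, Complex.conj_ofReal]
    have hpp : p * p = p := by
      rw [hp, smul_mul_smul_comm, hxx, ← Complex.coe_smul, smul_smul]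
      congr 1
      have : (s : ℂ) ≠ 0 := by exact_mod_cast hs
      push_cast
      field_simp
    have hpe : p * e = p := by rw [hp, smul_mul_assoc, hxe]
    have hep : e * p = p := by rw [hp, mul_smul_comm, hex]
    have hq : (e - p) * (e - p) = e - p := by
      rw [sub_mul, mul_sub, mul_sub, hee, hpe, hep, hpp]; abel
    have hqs : IsSelfAdjoint (e - p) := by
      show star (e - p) = e - p
      rw [star_sub, hes, hps.star_eq]
    have hmq : RMem a (e - p) := by
      have := hme.trans (rmem_mul e (e - p))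
      rwa [mul_sub, hee, hep] at this
    rcases hA p (e - p) (proj_nonneg hps hpp) (proj_nonneg hqs hq)
      (hp ▸ hmx.smul _) hmq (by rw [mul_sub, hpe, hpp, sub_self]) with h | h
    · rw [hp, smul_eq_zero] at h
      exact absurd (h.resolve_left (by simp [hs])) h0
    · refine ⟨(s : ℂ), ?_⟩
      calc x = (s : ℂ) • p := by
            rw [hp, smul_smul, ← Complex.ofReal_mul, mul_inv_cancel₀ hs, Complex.ofReal_one,
              one_smul]
        _ = (s : ℂ) • e := by rw [← sub_eq_zero.1 h]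
  refine ⟨e, hes, hee, he0, fun x => ?_⟩
  obtain ⟨z₁, h1⟩ := hsa (x + star x) (by rw [star_add, star_star, add_comm])
  obtain ⟨z₂, h2⟩ := hsa (Complex.I • (x - star x))
    (by rw [star_smul, star_sub, star_star, Complex.star_def, Complex.conj_I, neg_smul,
      ← smul_neg, neg_sub])
  refine ⟨(2 : ℂ)⁻¹ * z₁ - Complex.I * (2 : ℂ)⁻¹ * z₂, ?_⟩
  have h3 : x = (2 : ℂ)⁻¹ • (x + star x)
      - (Complex.I * (2 : ℂ)⁻¹) • (Complex.I • (x - star x)) := by
    match_scalars <;> ring_nf <;> simp [Complex.I_sq] <;> ring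
  conv_lhs => rw [h3]
  rw [mul_sub, sub_mul, mul_smul_comm, mul_smul_comm (Complex.I * _), smul_mul_assoc,
    smul_mul_assoc (Complex.I * _), h1, h2, smul_smul, smul_smul, ← sub_smul]

/-- The closure of the range of `π k`. -/
noncomputable def region (π : A →⋆ₙₐ[ℂ] (H →L[ℂ] H)) (k : A) : Submodule ℂ H :=
  (π k).range.topologicalClosure

lemma isClosed_region (k : A) : IsClosed (region π k : Set H) :=
  Submodule.isClosed_topologicalClosure _

lemma apply_mem_region (k : A) (v : H) : π k v ∈ region π k :=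
  Submodule.le_topologicalClosure _ ⟨v, rfl⟩

lemma region_mono {p q : A} (h : RMem p q) : region π q ≤ region π p := by
  refine Submodule.topologicalClosure_minimal _ ?_ (isClosed_region p)
  rintro _ ⟨v, rfl⟩
  refine h.of_closed (S := {r | π r v ∈ region π p}) ?_ fun w => ?_
  · exact (isClosed_region p).preimage ((ContinuousLinearMap.apply ℂ H v).continuous.comp
      (map_continuous π))
  · show π (p * w) v ∈ region π p
    rw [rep_mul]
    exact apply_mem_region p _

/-- A contraction whose square is `1` on a smaller nonzero element below `b`. -/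
lemma exists_child {b : A} (hb : 0 ≤ b) (hb0 : b ≠ 0) :
    ∃ s k : A, ‖s‖ ≤ 1 ∧ 0 ≤ k ∧ k ≠ 0 ∧ star s * s * k = k ∧ RMem b (star s * s) ∧ RMem b k ∧
      star s * s ≠ 0 := by
  set κ := ‖b‖ / 4 with hκd
  have hκ : 0 < κ := by positivity
  set k := cut (2 * κ) b
  have hk0 : k ≠ 0 := fun h => by
    have h2 := norm_sub_cut_le (κ := 2 * κ) (by positivity) hb
    rw [show cut (2 * κ) b = 0 from h, sub_zero] at h2
    linarith [norm_pos_iff.2 hb0]
  have hnn : 0 ≤ ramp κ b := cfcₙ_nonneg fun t _ => le_min zero_le_one (by positivity)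
  set s := CFC.sqrt (ramp κ b)
  have hss : star s * s = ramp κ b := by
    rw [(IsSelfAdjoint.of_nonneg (CFC.sqrt_nonneg _)).star_eq, CFC.sqrt_mul_sqrt_self _ hnn]
  refine ⟨s, k, ?_, cut_nonneg _ _, hk0, ?_, ?_, rmem_cut _ _, ?_⟩
  · have := norm_ramp_le hκ b
    rw [← hss, CStarRing.norm_star_mul_self] at this
    nlinarith [norm_nonneg s]
  · rw [hss]; exact ramp_mul_cut hκ hb
  · rw [hss]; exact rmem_cfcₙ _ _
  · intro h
    refine hk0 ?_
    show cut (2 * κ) b = 0
    rw [← ramp_mul_cut hκ hb, ← hss, h, zero_mul]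

/-- A decreasing sequence of squares of contractions has a common fixed vector. -/
lemma exists_chain_vector (hN : PropertyN A) (hπ : IsIrreducibleRep π) (s : ℕ → A)
    (hs : ∀ m, ‖s m‖ ≤ 1)
    (hchain : ∀ j m, j < m → star (s j) * s j * (star (s m) * s m) = star (s m) * s m)
    (hne : ∀ m, star (s m) * s m ≠ 0) :
    ∃ η : H, η ≠ 0 ∧ ∀ m, π (star (s m) * s m) η = η := by
  refine exists_fixed hN hπ 0 s hs fun t ε hε => ?_
  obtain ⟨N, hN'⟩ : ∃ N, ∀ j ∈ t, j < N := ⟨t.sup id + 1, fun j hj =>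
    Nat.lt_succ_of_le (Finset.le_sup (f := id) hj)⟩
  obtain ⟨u, hu⟩ : ∃ u, π (star (s N) * s N) u ≠ 0 := by
    by_contra h
    push Not at h
    exact hne N (faithful hN hπ (by rw [map_zero]; exact ContinuousLinearMap.ext h))
  set y := π (star (s N) * s N) u with hy
  set v : H := ((‖y‖⁻¹ : ℝ) : ℂ) • y with hv
  have hv1 : ‖v‖ = 1 := by
    rw [hv, norm_smul, Complex.norm_real, norm_inv, norm_norm,
      inv_mul_cancel₀ (norm_ne_zero_iff.2 hu)]
  refine ⟨v, hv1.le, fun j hj => ?_⟩
  have hjv : π (star (s j) * s j) v = v := by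
    rw [hv, map_smul, hy, ← rep_mul, hchain j N (hN' j hj)]
  have h1 := rep_sq π (s j) v
  rw [hjv, inner_self_eq_norm_sq_to_K, hv1] at h1
  have h2 : (1 : ℝ) = ‖π (s j) v‖ ^ 2 := by
    apply_fun Complex.re at h1
    simpa [← Complex.ofReal_pow] using h1
  linarith

lemma chain_of_step {s k : ℕ → A} (hfix : ∀ m, star (s m) * s m * k m = k m)
    (hs : ∀ m, RMem (k m) (star (s (m + 1)) * s (m + 1)))
    (hk : ∀ m, RMem (k m) (k (m + 1))) :
    ∀ j m, j < m → star (s j) * s j * (star (s m) * s m) = star (s m) * s m := by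
  intro j m hjm
  have hkk : ∀ i, j ≤ i → RMem (k j) (k i) := fun i hi => by
    induction i, hi using Nat.le_induction with
    | base => exact rmem_self _
    | succ i _ ih => exact ih.trans (hk i)
  obtain ⟨i, rfl⟩ : ∃ i, m = i + 1 := ⟨m - 1, by omega⟩
  exact RMem.fixed ((hkk i (by omega)).trans (hs i)) (hfix j)

/-- Regions of density below the continuum do not exist. -/
theorem region_not_small (hN : PropertyN A) (hπ : IsIrreducibleRep π) (hB : Branches A)
    {k₀ : A} (hk₀ : 0 ≤ k₀) (hk₀0 : k₀ ≠ 0) : ¬ IsSmallSet (region π k₀ : Set H) := by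
  classical
  rintro ⟨D, hD, hsub⟩
  choose a₁ a₂ h1 h2 h10 h20 horth hm1 hm2 using
    fun p : {a : A // 0 ≤ a ∧ a ≠ 0} => hB p.1 p.2.1 p.2.2
  let pick : {a : A // 0 ≤ a ∧ a ≠ 0} → Bool → {a : A // 0 ≤ a ∧ a ≠ 0} := fun p b =>
    if b then ⟨a₁ p, h1 p, h10 p⟩ else ⟨a₂ p, h2 p, h20 p⟩
  choose sC kC hs hk hkne hfix hms hmk hsne using
    fun p : {a : A // 0 ≤ a ∧ a ≠ 0} => exists_child p.2.1 p.2.2
  let node : (ℕ → Bool) → ℕ → {a : A // 0 ≤ a ∧ a ≠ 0} := fun β m =>
    Nat.rec ⟨k₀, hk₀, hk₀0⟩ (fun i p => ⟨kC (pick p (β i)), hk _, hkne _⟩) m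
  have hnode : ∀ β m, (node β (m + 1)).1 = kC (pick (node β m) (β m)) := fun _ _ => rfl
  let s : (ℕ → Bool) → ℕ → A := fun β m => sC (pick (node β m) (β m))
  have hpick : ∀ p b, RMem p.1 (pick p b).1 := fun p b => by
    cases b
    · exact hm2 p
    · exact hm1 p
  have hfixed : ∀ β, ∃ η : H, η ≠ 0 ∧ ∀ m, π (star (s β m) * s β m) η = η := fun β => by
    refine exists_chain_vector hN hπ (s β) (fun m => hs _) ?_ (fun m => hsne _)
    exact chain_of_step (k := fun m => (node β (m + 1)).1) (fun m => hfix _)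
      (fun m => (hpick (node β (m + 1)) (β (m + 1))).trans (hms _))
      (fun m => (hpick (node β (m + 1)) (β (m + 1))).trans (hmk _))
  choose η hη0 hη using hfixed
  set v : (ℕ → Bool) → H := fun β => ((‖η β‖⁻¹ : ℝ) : ℂ) • η β with hv
  have hv1 : ∀ β, ‖v β‖ = 1 := fun β => by
    rw [hv, norm_smul, Complex.norm_real, norm_inv, norm_norm,
      inv_mul_cancel₀ (norm_ne_zero_iff.2 (hη0 β))]
  have hvR : ∀ β, v β ∈ region π k₀ := fun β => by
    refine Submodule.smul_mem _ _ ?_
    rw [← hη β 0]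
    exact region_mono ((hpick (node β 0) (β 0)).trans (hms _)) (apply_mem_region _ _)
  have horth' : ∀ β γ, β ≠ γ → ⟪v β, v γ⟫_ℂ = 0 := by
    intro β γ hne
    have hex : ∃ m, β m ≠ γ m := Function.ne_iff.1 hne
    set m := Nat.find hex
    have hlt : ∀ j < m, β j = γ j := fun j hj => not_not.1 (Nat.find_min hex hj)
    have hsame : ∀ j ≤ m, node β j = node γ j := by
      intro j hj
      induction j with
      | zero => rfl
      | succ j ih =>
        refine Subtype.ext ?_
        rw [hnode, hnode, ih (by omega), hlt j (by omega)]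
    have hp : (pick (node β m) (β m)).1 * (pick (node γ m) (γ m)).1 = 0 := by
      rw [← hsame m le_rfl]
      have hb := Nat.find_spec hex
      change β m ≠ γ m at hb
      revert hb
      generalize node β m = p
      cases β m <;> cases γ m <;> intro hb <;> try exact absurd rfl hb
      · have := congrArg star (horth p)
        rw [star_mul, star_zero, (h1 p).isSelfAdjoint.star_eq,
          (h2 p).isSelfAdjoint.star_eq] at this
        exact this
      · exact horth p
    have hz : star (s β m) * s β m * (star (s γ m) * s γ m) = 0 := by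
      have h := RMem.star_mul_eq_zero_self
        ((pick (node β m) (β m)).2.1.isSelfAdjoint.star_eq) hp (hms (pick (node β m) (β m)))
        (hms (pick (node γ m) (γ m)))
      rwa [star_mul, star_star] at h
    simp only [v, inner_smul_left, inner_smul_right]
    rw [show ⟪η β, η γ⟫_ℂ = 0 by
      obtain ⟨P, hP⟩ : ∃ P, P = star (s β m) * s β m := ⟨_, rfl⟩
      obtain ⟨Q, hQ⟩ : ∃ Q, Q = star (s γ m) * s γ m := ⟨_, rfl⟩
      have hPs : star P = P := by rw [hP, star_mul, star_star]
      calc ⟪η β, η γ⟫_ℂ = ⟪π (star P) (η β), π Q (η γ)⟫_ℂ := by rw [hPs, hP, hQ, hη, hη]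
        _ = ⟪η β, π (P * Q) (η γ)⟫_ℂ := by rw [rep_adj, rep_mul]
        _ = 0 := by rw [hP, hQ, hz]; simp]
    simp
  have hnear : ∀ β, ∃ d ∈ D, dist (v β) d < 1 / 2 := fun β =>
    Metric.mem_closure_iff.1 (hsub (hvR β)) _ (by norm_num)
  choose d hdD hd using hnear
  have hinj : Function.Injective (fun β => (⟨d β, hdD β⟩ : D)) := by
    intro β γ h
    have h' : d β = d γ := congrArg Subtype.val h
    by_contra hne
    have hdist : dist (v β) (v γ) < 1 := by
      calc dist (v β) (v γ) ≤ dist (v β) (d β) + dist (v γ) (d γ) := by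
            rw [h']; exact dist_triangle_right _ _ _
        _ < 1 := by linarith [hd β, hd γ]
    have hsq : ‖v β - v γ‖ ^ 2 = 2 := by
      rw [norm_sub_sq (𝕜 := ℂ), horth' β γ hne, hv1, hv1]
      simp
      norm_num
    rw [dist_eq_norm] at hdist
    nlinarith [norm_nonneg (v β - v γ)]
  have hle := Cardinal.lift_mk_le_lift_mk_of_injective hinj
  rw [Cardinal.mk_arrow] at hle
  simp at hle
  exact absurd hD (not_lt.2 hle)

end Vale.Agent.P070
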