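import Vale.Agent.P070.Defs

/-!
A character of a commutative algebra and elements peaking at it.
-/

universe u

namespace Vale.Agent.P070

lemma exists_char (B : Type u) [NonUnitalCommCStarAlgebra B] [Nontrivial B] :
    ∃ χ : B → ℂ, (∀ a b, χ (a + b) = χ a + χ b) ∧ (∀ (z : ℂ) a, χ (z • a) = z * χ a) ∧
      (∀ a b, χ (a * b) = χ a * χ b) ∧ (∀ a, ‖χ a‖ ≤ ‖a‖) ∧
      (∀ a, χ (star a) = starRingEnd ℂ (χ a)) ∧ (∃ b, χ b = 1) ∧
      ∀ y, χ y = 0 → ∀ ε : ℝ, 0 < ε → ∃ s, ‖s‖ ≤ 1 ∧ χ s = 1 ∧ ‖y * s‖ ≤ ε := by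
  obtain ⟨b₀, hb₀⟩ := exists_ne (0 : B)
  set G := WeakDual.gelfandTransform ℂ (Unitization ℂ B) with hG
  have hnorm : ∀ x, ‖G x‖ = ‖x‖ := (gelfandTransform_isometry (Unitization ℂ B)).norm_map_of_map_zero (map_zero G)
  obtain ⟨φ, hφ⟩ : ∃ φ, G (b₀ : Unitization ℂ B) φ ≠ 0 := by
    by_contra h
    push Not at h
    have h0 : G (b₀ : Unitization ℂ B) = 0 := ContinuousMap.ext h
    have := hnorm (b₀ : Unitization ℂ B)
    rw [h0, norm_zero, Unitization.norm_inr] at this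
    exact hb₀ (norm_eq_zero.1 this.symm)
  set χ : B → ℂ := fun a => G (a : Unitization ℂ B) φ with hχ
  have hb1 : χ ((χ b₀)⁻¹ • b₀) = 1 := by
    simp only [χ, Unitization.inr_smul, map_smul, ContinuousMap.smul_apply, smul_eq_mul]
    exact inv_mul_cancel₀ hφ
  refine ⟨χ, fun a c => ?_, fun z a => ?_, fun a c => ?_, fun a => ?_, fun a => ?_, ⟨_, hb1⟩,
    fun y hy ε hε => ?_⟩
  · simp [χ, Unitization.inr_add]
  · simp [χ, Unitization.inr_smul]
  · simp [χ, Unitization.inr_mul]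
  · exact ((G (a : Unitization ℂ B)).norm_coe_le_norm φ).trans
      (by rw [hnorm, Unitization.norm_inr])
  · simp only [χ, G, Unitization.inr_star, gelfandTransform_map_star]
    rfl
  set b := (χ b₀)⁻¹ • b₀
  set P := G (b : Unitization ℂ B) with hP
  set Y := G (y : Unitization ℂ B) with hY
  let F : C(WeakDual.characterSpace ℂ (Unitization ℂ B), ℂ) :=
    ⟨fun ψ => ((max 0 (1 - ‖Y ψ‖ / ε) / max 1 ‖P ψ‖ : ℝ) : ℂ), by
      refine Complex.continuous_ofReal.comp (Continuous.div (by fun_prop) (by fun_prop) fun ψ => ?_)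
      exact (zero_lt_one.trans_le (le_max_left _ _)).ne'⟩
  obtain ⟨g, hg⟩ := (gelfandTransform_bijective (Unitization ℂ B)).2 F
  set x : Unitization ℂ B := (b : Unitization ℂ B) * g with hx
  have hxB : x = ((x.snd : B) : Unitization ℂ B) := by
    refine Unitization.ext ?_ (by simp)
    simp [x]
  have hGx : ∀ ψ, G x ψ = P ψ * F ψ := fun ψ => by simp [x, G, ← hg, P]
  have hF : ∀ ψ, ‖F ψ‖ = max 0 (1 - ‖Y ψ‖ / ε) / max 1 ‖P ψ‖ := fun ψ => by
    simp only [F, ContinuousMap.coe_mk, Complex.norm_real]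
    exact Real.norm_of_nonneg (by positivity)
  have hle : ∀ ψ, ‖G x ψ‖ ≤ max 0 (1 - ‖Y ψ‖ / ε) := fun ψ => by
    rw [hGx, norm_mul, hF, ← mul_div_assoc, div_le_iff₀ (zero_lt_one.trans_le (le_max_left _ _))]
    rw [mul_comm]
    exact mul_le_mul_of_nonneg_left (le_max_right _ _) (le_max_left _ _)
  refine ⟨x.snd, ?_, ?_, ?_⟩
  · rw [← Unitization.norm_inr (𝕜 := ℂ), ← hxB, ← hnorm, ContinuousMap.norm_le _ zero_le_one]
    exact fun ψ => (hle ψ).trans (max_le zero_le_one (by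
      have : 0 ≤ ‖Y ψ‖ / ε := by positivity
      linarith))
  · show G _ φ = 1
    rw [← hxB, hGx]
    have h1 : P φ = 1 := hb1
    have h2 : Y φ = 0 := hy
    simp [F, h1, h2]
  · rw [← Unitization.norm_inr (𝕜 := ℂ), Unitization.inr_mul, ← hxB, ← hnorm,
      ContinuousMap.norm_le _ hε.le]
    intro ψ
    rw [map_mul, ContinuousMap.mul_apply, norm_mul]
    refine (mul_le_mul_of_nonneg_left (hle ψ) (norm_nonneg _)).trans ?_
    change ‖Y ψ‖ * _ ≤ ε
    rcases le_total (1 - ‖Y ψ‖ / ε) 0 with h | h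
    · rw [max_eq_left h, mul_zero]; exact hε.le
    · rw [max_eq_right h]
      have hY1 : ‖Y ψ‖ ≤ ε := (div_le_one hε).1 (by linarith)
      exact (mul_le_of_le_one_right (norm_nonneg _) (by
        have : 0 ≤ ‖Y ψ‖ / ε := by positivity
        linarith)).trans hY1

end Vale.Agent.P070
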