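import Vale.Agent.P070.Rep

/-!
Two-vector transitivity with a contraction, from Schur's lemma.
-/

universe u

set_option linter.unusedSectionVars false

namespace Vale.Agent.P070

open InnerProductSpace ComplexOrder

variable {A : Type u} [NonUnitalCStarAlgebra A] [PartialOrder A] [StarOrderedRing A]
variable {H : Type u} [NormedAddCommGroup H] [InnerProductSpace ℂ H] [CompleteSpace H]
variable {π : A →⋆ₙₐ[ℂ] (H →L[ℂ] H)}

lemma nontrivial_of_irrep (hπ : IsIrreducibleRep π) : Nontrivial H := by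
  obtain ⟨a, ha⟩ := hπ.1
  by_contra h
  rw [not_nontrivial_iff_subsingleton] at h
  exact ha (ContinuousLinearMap.ext fun x => Subsingleton.elim _ _)

lemma eq_zero_of_orbit (hπ : IsIrreducibleRep π) {x : H} (h : ∀ a, π a x = 0) : x = 0 := by
  by_contra hx
  have := nontrivial_of_irrep hπ
  obtain ⟨y, hy⟩ := exists_ne (0 : H)
  refine hy ?_
  exact (closure_minimal (s := Set.range fun a => π a x) (t := {0})
    (by rintro _ ⟨a, rfl⟩; exact h a) isClosed_singleton) (orbit_dense hπ hx y)

lemma schur_sa (hπ : IsIrreducibleRep π) {T : H →L[ℂ] H} (hT : IsSelfAdjoint T)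
    (hc : ∀ a, π a * T = T * π a) : ∃ t : ℂ, T = t • 1 := by
  have := nontrivial_of_irrep hπ
  obtain ⟨t, ht⟩ : (spectrum ℝ T).Nonempty :=
    ContinuousFunctionalCalculus.spectrum_nonempty T hT
  refine ⟨(t : ℂ), ?_⟩
  have huniq : ∀ s ∈ spectrum ℝ T, s = t := by
    intro s hs
    by_contra hst
    set δ := |s - t| / 2 with hδd
    have hδ : 0 < δ := half_pos (abs_pos.2 (sub_ne_zero.2 hst))
    let g : ℝ → ℝ → ℝ := fun u r => max (δ - |r - u|) 0
    have hg : ∀ u, Continuous (g u) := fun u => by fun_prop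
    have hne : ∀ u ∈ spectrum ℝ T, cfc (g u) T ≠ 0 := fun u hu h => by
      have := norm_apply_le_norm_cfc (g u) T hu (hg u).continuousOn hT
      rw [h, norm_zero] at this
      simp [g, max_eq_left hδ.le] at this
      linarith
    have h12 : cfc (g s) T * cfc (g t) T = 0 := by
      rw [← cfc_mul _ _ T (hg s).continuousOn (hg t).continuousOn]
      refine (cfc_congr fun r _ => ?_).trans (cfc_const_zero ℝ T)
      simp only [g]
      rcases le_total δ |r - t| with h | h
      · rw [max_eq_right (show δ - |r - t| ≤ 0 by linarith), mul_zero]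
      · have : |s - t| ≤ |r - s| + |r - t| := by
          rw [abs_sub_comm r s]; exact abs_sub_le s r t
        rw [max_eq_right (show δ - |r - s| ≤ 0 by linarith), zero_mul]
    have hcg : ∀ a, π a * cfc (g t) T = cfc (g t) T * π a := fun a =>
      ((Commute.cfc_real (show Commute T (π a) from (hc a).symm) (g t)).symm).eq
    rcases hπ.2 (cfc (g t) T).range.topologicalClosure (Submodule.isClosed_topologicalClosure _)
      (fun a x hx => by
        rw [← SetLike.mem_coe, Submodule.topologicalClosure_coe] at hx ⊢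
        refine map_mem_closure (π a).continuous hx ?_
        rintro _ ⟨v, rfl⟩
        exact ⟨π a v, (DFunLike.congr_fun (hcg a) v).symm⟩) with h | h
    · refine hne t ht (ContinuousLinearMap.ext fun v => ?_)
      have hm : cfc (g t) T v ∈ (cfc (g t) T).range.topologicalClosure :=
        Submodule.le_topologicalClosure _ ⟨v, rfl⟩
      rw [h] at hm
      exact (Submodule.mem_bot ℂ).1 hm
    · refine hne s hs (ContinuousLinearMap.ext fun v => ?_)
      have hm : v ∈ (cfc (g t) T).range.topologicalClosure := h ▸ Submodule.mem_top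
      rw [← SetLike.mem_coe, Submodule.topologicalClosure_coe] at hm
      refine closure_minimal (t := {w | cfc (g s) T w = 0}) ?_
        (isClosed_eq (by fun_prop) continuous_const) hm
      rintro _ ⟨w, rfl⟩
      exact DFunLike.congr_fun h12 w
  calc T = cfc (fun r => r) T := (cfc_id' ℝ T hT).symm
    _ = cfc (fun _ => t) T := cfc_congr fun r hr => huniq r hr
    _ = algebraMap ℝ (H →L[ℂ] H) t := cfc_const t T
    _ = (t : ℂ) • 1 := by rw [Algebra.algebraMap_eq_smul_one, Complex.coe_smul]

lemma schur (hπ : IsIrreducibleRep π) {T : H →L[ℂ] H} (hc : ∀ a, π a * T = T * π a) :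
    ∃ t : ℂ, T = t • 1 := by
  have hcs : ∀ a, π a * star T = star T * π a := fun a => by
    have := congrArg star (hc (star a))
    rw [star_mul, star_mul, map_star, star_star] at this
    exact this.symm
  obtain ⟨t₁, h1⟩ := schur_sa hπ (T := T + star T)
    (by show star (T + star T) = T + star T; rw [star_add, star_star, add_comm])
    (fun a => by rw [mul_add, add_mul, hc, hcs])
  obtain ⟨t₂, h2⟩ := schur_sa hπ (T := Complex.I • (T - star T))
    (by
      show star (Complex.I • (T - star T)) = Complex.I • (T - star T)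
      rw [star_smul, star_sub, star_star, Complex.star_def, Complex.conj_I, neg_smul, ← smul_neg,
        neg_sub])
    (fun a => by rw [mul_smul_comm, smul_mul_assoc, mul_sub, sub_mul, hc, hcs])
  refine ⟨(2 : ℂ)⁻¹ * t₁ - Complex.I * (2 : ℂ)⁻¹ * t₂, ?_⟩
  have h3 : T = (2 : ℂ)⁻¹ • (T + star T)
      - (Complex.I * (2 : ℂ)⁻¹) • (Complex.I • (T - star T)) := by
    match_scalars <;> ring_nf <;> simp [Complex.I_sq] <;> ring
  conv_lhs => rw [h3, h1, h2]
  rw [smul_smul, smul_smul, ← sub_smul]

/-- A vanishing functional on finitely many orbits vanishes on all bounded operators. -/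
lemma bicommutant {ι : Type} [Fintype ι] [DecidableEq ι] (hπ : IsIrreducibleRep π)
    (x y : ι → H) (h : ∀ a, ∑ i, ⟪y i, π a (x i)⟫_ℂ = 0) (B : H →L[ℂ] H) :
    ∑ i, ⟪y i, B (x i)⟫_ℂ = 0 := by
  let L : A →ₗ[ℂ] PiLp 2 (fun _ : ι => H) :=
    { toFun := fun a => WithLp.toLp 2 fun i => π a (x i)
      map_add' := fun a b => by ext i; simp
      map_smul' := fun z a => by ext i; simp }
  set K := L.range.topologicalClosure with hK
  have hKc : IsClosed (K : Set (PiLp 2 fun _ : ι => H)) := Submodule.isClosed_topologicalClosure _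
  have : CompleteSpace K := hKc.completeSpace_coe
  set P := K.starProjection with hP
  let D : A → (PiLp 2 (fun _ : ι => H)) → PiLp 2 (fun _ : ι => H) :=
    fun a w => WithLp.toLp 2 fun i => π a (w i)
  have hDK : ∀ a w, w ∈ K → D a w ∈ K := by
    intro a w hw
    rw [← SetLike.mem_coe, hK, Submodule.topologicalClosure_coe] at hw ⊢
    refine map_mem_closure ((PiLp.continuous_toLp 2 _).comp (continuous_pi fun i =>
      (π a).continuous.comp (PiLp.continuous_apply 2 _ i))) hw ?_
    rintro _ ⟨b, rfl⟩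
    refine ⟨a * b, ?_⟩
    ext i
    simp [D, L]
  have hPD : ∀ a w, P (D a w) = D a (P w) := by
    intro a w
    refine Submodule.eq_starProjection_of_mem_of_inner_eq_zero
      (hDK a _ (K.starProjection_apply_mem w)) fun z hz => ?_
    have h0 := K.starProjection_inner_eq_zero w _ (hDK (star a) z hz)
    simp only [PiLp.inner_apply] at h0 ⊢
    refine Eq.trans (Finset.sum_congr rfl fun i _ => ?_) h0
    show ⟪(D a w - D a (P w)) i, z i⟫_ℂ = ⟪(w - P w) i, π (star a) (z i)⟫_ℂ
    simp only [PiLp.sub_apply, D, ← map_sub]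
    conv_lhs => rw [← star_star a]
    rw [rep_adj]
  have hent : ∀ i j, ∃ t : ℂ, ∀ v : H, (P (PiLp.single 2 j v)) i = t • v := by
    intro i j
    let T : H →L[ℂ] H :=
      LinearMap.mkContinuous
        { toFun := fun v => (P (PiLp.single 2 j v)) i
          map_add' := fun v w => by
            rw [show PiLp.single 2 j (v + w) = PiLp.single 2 j v + (PiLp.single 2 j w :
              PiLp 2 fun _ : ι => H) from by ext l; rcases eq_or_ne l j with rfl | hl <;> simp [*]]
            simp
          map_smul' := fun z v => by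
            rw [show PiLp.single 2 j (z • v) = z • (PiLp.single 2 j v :
              PiLp 2 fun _ : ι => H) from by ext l; rcases eq_or_ne l j with rfl | hl <;> simp [*]]
            simp } ‖P‖ fun v => by
        refine ((PiLp.norm_apply_le (P (PiLp.single 2 j v)) i).trans (P.le_opNorm _)).trans ?_
        rw [PiLp.norm_single]
    obtain ⟨t, ht⟩ := schur hπ (T := T) fun a => ContinuousLinearMap.ext fun v => by
      show π a ((P (PiLp.single 2 j v)) i) = (P (PiLp.single 2 j (π a v))) i
      have e : PiLp.single 2 j (π a v) = D a (PiLp.single 2 j v) := by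
        ext l
        rcases eq_or_ne l j with rfl | hl
        · simp [D]
        · simp [D, hl]
      rw [e, hPD]
    refine ⟨t, fun v => ?_⟩
    exact (DFunLike.congr_fun ht v).trans (by simp)
  choose t ht using hent
  have hPw : ∀ (w : PiLp 2 (fun _ : ι => H)) i, (P w) i = ∑ j, t i j • w j := by
    intro w i
    have e : w = ∑ j, PiLp.single 2 j (w j) := by
      ext l; simp
    conv_lhs => rw [e]
    simp [ht]
  have hx : ∀ i, ∑ j, t i j • x j = x i := by
    intro i
    refine sub_eq_zero.1 (eq_zero_of_orbit hπ fun a => ?_)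
    have hLK : L a ∈ K := Submodule.le_topologicalClosure _ ⟨a, rfl⟩
    have e : (P (L a)) i = (L a) i := by rw [Submodule.starProjection_eq_self_iff.2 hLK]
    rw [hPw] at e
    rw [map_sub, map_sum, sub_eq_zero]
    simpa [L, map_smul] using e
  have hBK : WithLp.toLp 2 (fun i => B (x i)) ∈ K := by
    rw [← Submodule.starProjection_eq_self_iff]
    ext i
    rw [hPw]
    show ∑ j, t i j • B (x j) = B (x i)
    rw [← hx i, map_sum]
    exact Finset.sum_congr rfl fun j _ => (map_smul B _ _).symm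
  rw [← SetLike.mem_coe, hK, Submodule.topologicalClosure_coe] at hBK
  refine closure_minimal
    (t := {w : PiLp 2 (fun _ : ι => H) | ∑ i, ⟪y i, w i⟫_ℂ = 0}) ?_
    (isClosed_eq (continuous_finsetSum _ fun i _ =>
      continuous_const.inner (PiLp.continuous_apply 2 _ i)) continuous_const) hBK
  rintro _ ⟨a, rfl⟩
  exact h a

lemma exists_sa_swap (hπ : IsIrreducibleRep π) {x y : H} {B : H →L[ℂ] H} (hB : IsSelfAdjoint B)
    (hBx : B x = y) (hBy : B y = x) {ε : ℝ} (hε : 0 < ε) :
    ∃ a : A, IsSelfAdjoint a ∧ ‖π a x - y‖ < ε ∧ ‖π a y - x‖ < ε := by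
  let L : A →ₗ[ℝ] H × H :=
    { toFun := fun a => (π (a + star a) x, π (a + star a) y)
      map_add' := fun a b => by
        simp [star_add, add_add_add_comm]
      map_smul' := fun r a => by
        rw [← Complex.coe_smul, star_smul, Complex.star_def, Complex.conj_ofReal, ← smul_add,
          map_smul]
        simp }
  suffices hmem : (y, x) ∈ closure (Set.range L) by
    obtain ⟨_, ⟨a, rfl⟩, ha⟩ := Metric.mem_closure_iff.1 hmem ε hε
    rw [dist_eq_norm, norm_sub_rev, Prod.norm_def] at ha
    exact ⟨a + star a, by show star (a + star a) = a + star a; rw [star_add, star_star, add_comm],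
      (le_max_left _ _).trans_lt ha, (le_max_right _ _).trans_lt ha⟩
  by_contra hnot
  obtain ⟨f, u, h1, h2⟩ := RCLike.geometric_hahn_banach_point_closed (𝕜 := ℂ)
    (t := closure (L.range : Set (H × H))) (L.range.convex.closure) isClosed_closure hnot
  have hu : u < 0 := by simpa using h2 0 (subset_closure L.range.zero_mem)
  set z := (InnerProductSpace.toDual ℂ H).symm (f ∘L ContinuousLinearMap.inl ℂ H H) with hz
  set w := (InnerProductSpace.toDual ℂ H).symm (f ∘L ContinuousLinearMap.inr ℂ H H) with hw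
  have hf : ∀ p q, f (p, q) = ⟪z, p⟫_ℂ + ⟪w, q⟫_ℂ := fun p q => by
    rw [hz, hw, InnerProductSpace.toDual_symm_apply, InnerProductSpace.toDual_symm_apply]
    simp [← map_add]
  have hL : ∀ a, (f (L a)).re = 0 := by
    intro a
    by_contra hne
    have := h2 (((u - 1) / (f (L a)).re) • L a)
      (subset_closure (L.range.smul_mem _ ⟨a, rfl⟩))
    rw [show ∀ (r : ℝ) (p : H × H), r • p = (r : ℂ) • p from
      fun r p => (Complex.coe_smul r p).symm, map_smul] at this
    simp only [RCLike.re_to_complex, smul_eq_mul, Complex.re_ofReal_mul] at this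
    rw [div_mul_cancel₀ _ hne] at this
    linarith
  let G : (H →L[ℂ] H) → ℂ := fun T => ∑ i : Fin 4, ⟪![z, x, w, y] i, T (![x, z, y, w] i)⟫_ℂ
  have hre : ∀ a, (G (π a)).re = 0 := fun a => by
    rw [← hL a]
    show _ = (f (π (a + star a) x, π (a + star a) y)).re
    rw [hf]
    simp only [G, Fin.sum_univ_four, map_add, add_apply, inner_add_right, Complex.add_re]
    simp only [Matrix.cons_val]
    have e : ∀ p q : H, (⟪p, π (star a) q⟫_ℂ).re = (⟪q, π a p⟫_ℂ).re := fun p q => by
      rw [← rep_adj π a, ← inner_conj_symm]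
      exact Complex.conj_re _
    rw [e, e]
    ring
  have hG : G B = 0 := bicommutant hπ _ _ (fun a => by
    refine Complex.ext (hre a) ?_
    have := hre (Complex.I • a)
    simp only [G, map_smul, smul_apply, inner_smul_right, ← Finset.mul_sum, Complex.mul_re,
      Complex.I_re, zero_mul, Complex.I_im, one_mul, zero_sub, neg_eq_zero] at this
    exact this) B
  have hval : (f (y, x)).re = 0 := by
    rw [hf]
    have hadj : ∀ p q : H, ⟪p, B q⟫_ℂ = ⟪B p, q⟫_ℂ := fun p q => by
      rw [← ContinuousLinearMap.adjoint_inner_left, ← ContinuousLinearMap.star_eq_adjoint,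
        hB.star_eq]
    have h0 := congrArg Complex.re hG
    simp only [G, Fin.sum_univ_four, Matrix.cons_val, Complex.add_re, Complex.zero_re] at h0
    rw [hBx, hBy, hadj x z, hBx, hadj y w, hBy, ← inner_conj_symm y z, ← inner_conj_symm x w,
      Complex.conj_re, Complex.conj_re] at h0
    rw [Complex.add_re]
    linarith
  simp only [RCLike.re_to_complex] at h1
  rw [hval] at h1
  linarith

/-- A unit vector can be moved close to any vector of the unit ball by a contraction. -/
lemma exists_contraction_near (hπ : IsIrreducibleRep π) {x y : H} (hx : ‖x‖ = 1) (hy : ‖y‖ ≤ 1)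
    {ε : ℝ} (hε : 0 < ε) : ∃ c : A, ‖c‖ ≤ 1 ∧ ‖π c x - y‖ ≤ ε := by
  rcases eq_or_ne y 0 with rfl | hy0
  · exact ⟨0, by simp, by simp [hε.le]⟩
  obtain ⟨ω, hω, him⟩ : ∃ ω : ℂ, ‖ω‖ = 1 ∧ (ω * ⟪x, y⟫_ℂ).im = 0 := by
    rcases eq_or_ne ⟪x, y⟫_ℂ 0 with h | h
    · exact ⟨1, norm_one, by simp [h]⟩
    refine ⟨starRingEnd ℂ ⟪x, y⟫_ℂ / (‖⟪x, y⟫_ℂ‖ : ℂ), ?_, ?_⟩
    · rw [norm_div, RCLike.norm_conj, Complex.norm_real, norm_norm,
        div_self (norm_ne_zero_iff.2 h)]
    · rw [div_mul_eq_mul_div, Complex.conj_mul', ← Complex.ofReal_pow, ← Complex.ofReal_div]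
      exact Complex.ofReal_im _
  set z : H := (ω / (‖y‖ : ℂ)) • y with hz
  have hny : (0:ℝ) < ‖y‖ := norm_pos_iff.2 hy0
  have hz1 : ‖z‖ = 1 := by
    rw [hz, norm_smul, norm_div, hω, Complex.norm_real, norm_norm, one_div,
      inv_mul_cancel₀ hny.ne']
  have hxz : ⟪z, x⟫_ℂ = ⟪x, z⟫_ℂ := by
    rw [← inner_conj_symm z x, Complex.conj_eq_iff_im, hz, inner_smul_right, div_mul_eq_mul_div,
      Complex.div_ofReal_im, him, zero_div]
  obtain ⟨B, hB, hBx, hBz⟩ : ∃ B : H →L[ℂ] H, IsSelfAdjoint B ∧ B x = z ∧ B z = x := by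
    set d := x - z with hd
    rcases eq_or_ne d 0 with h | h
    · rw [hd, sub_eq_zero] at h
      exact ⟨1, IsSelfAdjoint.one _, by simp [h], by simp [h]⟩
    refine ⟨1 - ((2 / ‖d‖ ^ 2 : ℝ) : ℂ) • rankOne ℂ d d, ?_, ?_, ?_⟩
    · refine (IsSelfAdjoint.one _).sub ?_
      rw [ContinuousLinearMap.isSelfAdjoint_iff_isSymmetric]
      intro p q
      simp only [ContinuousLinearMap.coe_coe, smul_apply, rankOne_apply, inner_smul_left,
        inner_smul_right, Complex.conj_ofReal, inner_conj_symm]
      ring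
    all_goals
      have hxx : ⟪x, x⟫_ℂ = 1 := by rw [inner_self_eq_norm_sq_to_K, hx]; simp
      have hzz : ⟪z, z⟫_ℂ = 1 := by rw [inner_self_eq_norm_sq_to_K, hz1]; simp
      have hdd : ((‖d‖ ^ 2 : ℝ) : ℂ) = 2 - 2 * ⟪x, z⟫_ℂ := by
        have : ⟪d, d⟫_ℂ = ((‖d‖ ^ 2 : ℝ) : ℂ) := by
          rw [inner_self_eq_norm_sq_to_K]; norm_cast
        rw [← this, hd]
        simp only [inner_sub_left, inner_sub_right, hxx, hzz, hxz]
        ring
      have hd0 : ((‖d‖ ^ 2 : ℝ) : ℂ) ≠ 0 := by
        exact_mod_cast pow_ne_zero 2 (norm_ne_zero_iff.2 h)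
      simp only [sub_apply, one_apply_eq_self, smul_apply, rankOne_apply, smul_smul]
    · have e : ((2 / ‖d‖ ^ 2 : ℝ) : ℂ) * ⟪d, x⟫_ℂ = 1 := by
        rw [Complex.ofReal_div, div_mul_eq_mul_div, div_eq_one_iff_eq hd0, hdd, hd,
          inner_sub_left, hxx, hxz, Complex.ofReal_ofNat]
        ring
      rw [e, one_smul, hd]
      abel
    · have e : ((2 / ‖d‖ ^ 2 : ℝ) : ℂ) * ⟪d, z⟫_ℂ = -1 := by
        rw [Complex.ofReal_div, div_mul_eq_mul_div, div_eq_iff hd0, hdd, hd,
          inner_sub_left, hzz, Complex.ofReal_ofNat]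
        ring
      rw [e, neg_one_smul, hd]
      abel
  obtain ⟨a, ha, ha1, ha2⟩ := exists_sa_swap hπ hB hBx hBz (ε := ε / 2) (by positivity)
  let g : ℝ → ℝ := fun s => 2 * s / (1 + s * s)
  have hpos : ∀ s : ℝ, (0:ℝ) < 1 + s * s := fun s => by nlinarith [mul_self_nonneg s]
  have hg : Continuous g := (by fun_prop : Continuous fun s : ℝ => 2 * s).div₀ (by fun_prop)
    fun s => (hpos s).ne'
  set c := cfcₙ g a with hc
  have hc1 : ‖c‖ ≤ 1 := norm_cfcₙ_le fun s _ => by
    rw [Real.norm_eq_abs, abs_div, abs_of_pos (hpos s), div_le_one (hpos s), abs_le]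
    constructor <;> nlinarith [sq_nonneg (s - 1), sq_nonneg (s + 1)]
  have hca : c + a * a * c = (2 : ℝ) • a := by
    have hid : cfcₙ (fun t : ℝ => t) a = a := cfcₙ_id' ℝ a ha
    conv_lhs => arg 2; arg 1; rw [← hid]
    conv_rhs => arg 2; rw [← hid]
    rw [hc, ← cfcₙ_mul _ _ a (by fun_prop) (by simp) (by fun_prop) (by simp),
      ← cfcₙ_mul _ _ a (by fun_prop) (by simp) hg.continuousOn (by simp [g]),
      ← cfcₙ_add (a := a) g (fun s => s * s * g s) hg.continuousOn (by simp [g])
        (((continuous_id'.mul continuous_id').mul hg).continuousOn) (by simp),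
      ← cfcₙ_smul _ _ a (by fun_prop) (by simp)]
    refine cfcₙ_congr fun s _ => ?_
    have := hpos s
    simp only [g, smul_eq_mul]
    field_simp
  refine ⟨((‖y‖ : ℂ) / ω) • c, ?_, ?_⟩
  · rw [norm_smul, norm_div, hω, Complex.norm_real, norm_norm, div_one]
    exact mul_le_one₀ hy (norm_nonneg _) hc1
  · have hω0 : ω ≠ 0 := fun h => by simp [h] at hω
    have hyz : y = ((‖y‖ : ℂ) / ω) • z := by
      have hnC : (‖y‖ : ℂ) ≠ 0 := by exact_mod_cast hny.ne'
      rw [hz, smul_smul, show (‖y‖ : ℂ) / ω * (ω / (‖y‖ : ℂ)) = 1 by field_simp, one_smul]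
    have key : ‖π c x - z‖ ≤ ε := by
      set v := π c x - z with hv
      set p := π a x - z with hp
      set q := π a z - x with hq
      have hAA : v + π a (π a v) = p - π a q := by
        have h3 := DFunLike.congr_fun (congrArg π hca) x
        rw [map_add, add_apply, rep_mul, rep_mul, ← Complex.coe_smul, map_smul, smul_apply,
          Complex.ofReal_ofNat, two_smul] at h3
        rw [hv, hp, hq, map_sub, map_sub, map_sub]
        calc _ = (π c x + π a (π a (π c x))) - z - π a (π a z) := by abel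
          _ = _ := by rw [h3]; abel
      have hself : ∀ r : H, ⟪v, π a r⟫_ℂ = ⟪π a v, r⟫_ℂ := fun r => by
        rw [← rep_adj, ha.star_eq]
      have h4 : ‖v‖ ^ 2 + ‖π a v‖ ^ 2 ≤ ‖v‖ * ‖p‖ + ‖π a v‖ * ‖q‖ := by
        have h5 := congrArg (fun r => (⟪v, r⟫_ℂ).re) hAA
        simp only [inner_add_right, inner_sub_right, hself, Complex.add_re, Complex.sub_re,
          inner_self_eq_norm_sq_to_K] at h5
        have h5' : ‖v‖ ^ 2 + ‖π a v‖ ^ 2 = (⟪v, p⟫_ℂ).re - (⟪π a v, q⟫_ℂ).re := by
          simpa [← Complex.ofReal_pow] using h5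
        have h6 := (Complex.abs_re_le_norm ⟪v, p⟫_ℂ).trans (norm_inner_le_norm v p)
        have h7 := (Complex.abs_re_le_norm ⟪π a v, q⟫_ℂ).trans (norm_inner_le_norm (π a v) q)
        rw [abs_le] at h6 h7
        linarith
      nlinarith [norm_nonneg v, norm_nonneg p, norm_nonneg q, sq_nonneg (‖π a v‖ - ‖q‖ / 2),
        sq_nonneg (‖v‖ - ‖p‖), sq_nonneg (‖v‖ - ε), ha1, ha2]
    obtain ⟨r, hr⟩ : ∃ r : ℂ, r = (‖y‖ : ℂ) / ω := ⟨_, rfl⟩
    rw [← hr] at hyz ⊢
    have e : r • π c x - y = r • (π c x - z) := by rw [smul_sub, ← hyz]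
    rw [map_smul, smul_apply, e, norm_smul, hr, norm_div, hω, Complex.norm_real, norm_norm,
      div_one]
    exact (mul_le_of_le_one_left (norm_nonneg _) hy).trans key

end Vale.Agent.P070
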