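import Vale.Agent.P070.Defs
import Vale.Agent.P133.Base

/-!
Quasi-states, their extreme points, and irreducible representations.
-/

universe u

set_option linter.unusedSectionVars false

namespace Vale.Agent.P070

open InnerProductSpace ComplexOrder
open Vale.Agent.P133

variable {A : Type u} [NonUnitalCStarAlgebra A] [PartialOrder A] [StarOrderedRing A]

variable (A) in
/-- Positive functionals of norm at most one, as functions. -/
def qstates : Set (A → ℂ) :=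
  {f | (∀ a b, f (a + b) = f a + f b) ∧ (∀ (z : ℂ) a, f (z • a) = z * f a) ∧
    (∀ a, 0 ≤ a → 0 ≤ f a) ∧ ∀ a, ‖f a‖ ≤ ‖a‖}

lemma isCompact_qstates : IsCompact (qstates A) := by
  refine (isCompact_univ_pi fun a : A => isCompact_closedBall (0 : ℂ) ‖a‖).of_isClosed_subset
    ?_ fun f hf a _ => by simpa using hf.2.2.2 a
  simp only [qstates, Set.ofPred_and, Set.ofPred_forall]
  refine IsClosed.inter (isClosed_iInter fun a => isClosed_iInter fun b =>
    isClosed_eq (by fun_prop) (by fun_prop))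
    (IsClosed.inter (isClosed_iInter fun z => isClosed_iInter fun a =>
      isClosed_eq (by fun_prop) (by fun_prop))
    (IsClosed.inter (isClosed_iInter fun a => isClosed_iInter fun _ =>
      isClosed_le continuous_const (by fun_prop))
    (isClosed_iInter fun a => isClosed_le (by fun_prop) continuous_const)))

/-- A positive continuous functional takes a positive value at a nonzero positive element. -/
lemma exists_qstate_pos {b : A} (hb : 0 ≤ b) (hb0 : b ≠ 0) :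
    ∃ f ∈ qstates A, 0 < (f b).re := by
  have hcone : Convex ℝ {a : A | 0 ≤ a} := fun x hx y hy s t hs ht _ =>
    add_nonneg (smul_nonneg hs hx) (smul_nonneg ht hy)
  have hnot : -b ∉ {a : A | 0 ≤ a} := fun h => hb0 (le_antisymm (neg_nonneg.1 h) hb)
  obtain ⟨φ, u, h1, h2⟩ := RCLike.geometric_hahn_banach_point_closed (𝕜 := ℂ) hcone
    CStarAlgebra.isClosed_nonneg hnot
  have hu : u < 0 := by simpa using h2 0 (le_refl (0 : A))
  have hφb : 0 < (φ b).re := by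
    simp only [map_neg, RCLike.re_to_complex] at h1
    linarith
  have hpos : ∀ x : A, 0 ≤ x → 0 ≤ (φ x).re := by
    intro x hx
    by_contra hlt
    push Not at hlt
    obtain ⟨r, hr⟩ : ∃ r : ℝ, r = u / (φ x).re := ⟨_, rfl⟩
    have hr0 : 0 ≤ r := hr ▸ (div_pos_of_neg_of_neg hu hlt).le
    have hxr := h2 (r • x) (smul_nonneg hr0 hx)
    rw [show r • x = (r : ℂ) • x from (Complex.coe_smul r x).symm, map_smul] at hxr
    simp only [RCLike.re_to_complex, smul_eq_mul, Complex.re_ofReal_mul] at hxr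
    rw [hr, div_mul_cancel₀ _ hlt.ne] at hxr
    exact lt_irrefl _ hxr
  set M : ℝ := ‖φ‖ + 1 with hM
  have hM0 : 0 < M := by positivity
  refine ⟨fun a => (φ a + starRingEnd ℂ (φ (star a))) / (2 * M : ℝ), ⟨?_, ?_, ?_, ?_⟩, ?_⟩
  · intro a c
    simp only [star_add, map_add]
    ring
  · intro z a
    simp only [star_smul, map_smul, smul_eq_mul, map_mul, Complex.star_def, Complex.conj_conj]
    ring
  · intro a ha
    simp only []
    rw [(IsSelfAdjoint.of_nonneg ha).star_eq, Complex.add_conj, ← Complex.ofReal_div]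
    exact Complex.zero_le_real.2 (div_nonneg (by linarith [hpos a ha]) (by positivity))
  · intro a
    rw [norm_div, Complex.norm_real, Real.norm_of_nonneg (by positivity),
      div_le_iff₀ (by positivity)]
    calc _ ≤ ‖φ a‖ + ‖starRingEnd ℂ (φ (star a))‖ := norm_add_le _ _
      _ ≤ ‖φ‖ * ‖a‖ + ‖φ‖ * ‖a‖ := by
          rw [RCLike.norm_conj]
          exact add_le_add (φ.le_opNorm a) ((φ.le_opNorm _).trans (by rw [norm_star]))
      _ ≤ ‖a‖ * (2 * M) := by nlinarith [norm_nonneg a]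
  · show 0 < ((φ b + starRingEnd ℂ (φ (star b))) / ((2 * M : ℝ) : ℂ)).re
    rw [(IsSelfAdjoint.of_nonneg hb).star_eq, Complex.add_conj, ← Complex.ofReal_div,
      Complex.ofReal_re]
    positivity

/-- A quasi-state as a positive linear map. -/
noncomputable def qMap (f : A → ℂ) (hf : f ∈ qstates A) : A →ₚ[ℂ] ℂ :=
  PositiveLinearMap.mk₀
    { toFun := f
      map_add' := hf.1
      map_smul' := hf.2.1 } hf.2.2.1

lemma qMap_apply {f : A → ℂ} (hf : f ∈ qstates A) (a : A) : qMap f hf a = f a := rfl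

lemma qstate_norm_le {f : A → ℂ} (hf : f ∈ qstates A) (a : A) :
    ‖f a‖ ≤ √(f (star a * a)).re := by
  set F := qMap f hf
  have hS : ∀ c : A, ‖f c‖ ≤ √(f (c * star c)).re := by
    intro c
    refine le_of_forall_pos_le_add fun ε hε => ?_
    obtain ⟨η, hη, hne⟩ : ∃ η : ℝ, 0 < η ∧ √η ≤ ε := ⟨ε ^ 2, by positivity, by rw [Real.sqrt_sq hε.le]⟩
    set w := cfcₙ (unitFun η) (star c * c)
    have hw : ‖c - c * w‖ ≤ √η := norm_sub_mul_unit_le hη le_rfl
    have hw1 : ‖star w * w‖ ≤ 1 := by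
      rw [CStarRing.norm_star_mul_self]
      exact mul_le_one₀ (norm_unit_le hη _) (norm_nonneg _) (norm_unit_le hη _)
    have hcs : ‖f (c * w)‖ ≤ √(f (c * star c)).re * √(f (star w * w)).re := by
      have := norm_inner_le_norm (𝕜 := ℂ) (F.toPreGNS (star c)) (F.toPreGNS w)
      simpa [PositiveLinearMap.preGNS_inner_def, PositiveLinearMap.preGNS_norm_def, F,
        qMap_apply] using this
    have hle1 : √(f (star w * w)).re ≤ 1 := Real.sqrt_le_one.2
      (((le_abs_self _).trans (Complex.abs_re_le_norm _)).trans ((hf.2.2.2 _).trans hw1))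
    calc ‖f c‖ = ‖f (c * w) + f (c - c * w)‖ := by rw [← hf.1, add_sub_cancel]
      _ ≤ ‖f (c * w)‖ + ‖f (c - c * w)‖ := norm_add_le _ _
      _ ≤ √(f (c * star c)).re + ε := add_le_add
          (hcs.trans (mul_le_of_le_one_right (Real.sqrt_nonneg _) hle1))
          (((hf.2.2.2 _).trans hw).trans hne)
  have h := hS (star a)
  rw [star_star] at h
  have hstar : f (star a) = starRingEnd ℂ (f a) := map_star F a
  rwa [hstar, RCLike.norm_conj] at h

lemma exists_gns_vector {f : A → ℂ} (hf : f ∈ qstates A) :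
    ∃ ξ : (qMap f hf).GNS, ‖ξ‖ ≤ 1 ∧
      (∀ a, (qMap f hf).gnsNonUnitalStarAlgHom a ξ
        = UniformSpace.Completion.coe' ((qMap f hf).toPreGNS a)) ∧
      ∀ a, f a = ⟪ξ, (qMap f hf).gnsNonUnitalStarAlgHom a ξ⟫_ℂ := by
  set F := qMap f hf
  set π := F.gnsNonUnitalStarAlgHom
  let L : F.PreGNS →L[ℂ] ℂ :=
    (F.toLinearMap ∘ₗ F.ofPreGNS.toLinearMap).mkContinuous 1 fun x => by
      rw [one_mul, PositiveLinearMap.preGNS_norm_def]
      exact qstate_norm_le hf (F.ofPreGNS x)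
  let e : F.PreGNS →L[ℂ] F.GNS := UniformSpace.Completion.toComplL
  have hed : DenseRange e := UniformSpace.Completion.denseRange_coe
  have hei : IsUniformInducing e := UniformSpace.Completion.isUniformInducing_coe _
  let L' : F.GNS →L[ℂ] ℂ := L.extend e
  have hL' : ∀ x, L' (e x) = L x := fun x => ContinuousLinearMap.extend_eq L hed hei x
  set ξ := (InnerProductSpace.toDual ℂ F.GNS).symm L'
  have hinner : ∀ y, ⟪ξ, y⟫_ℂ = L' y := fun y => InnerProductSpace.toDual_symm_apply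
  have hnorm : ‖ξ‖ ≤ 1 := by
    rw [LinearIsometryEquiv.norm_map]
    refine ContinuousLinearMap.opNorm_le_bound _ zero_le_one fun y => ?_
    induction y using UniformSpace.Completion.induction_on with
    | hp => exact isClosed_le (by fun_prop) (by fun_prop)
    | ih x =>
      rw [show L' (x : F.GNS) = L x from hL' x, UniformSpace.Completion.norm_coe]
      exact L.le_of_opNorm_le (LinearMap.mkContinuous_norm_le _ zero_le_one _) x
  have hadj : ∀ (a : A) (x y : F.GNS), ⟪π (star a) x, y⟫_ℂ = ⟪x, π a y⟫_ℂ := fun a x y => by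
    rw [map_star, ContinuousLinearMap.star_eq_adjoint, ContinuousLinearMap.adjoint_inner_left]
  have hvec : ∀ a, π a ξ = UniformSpace.Completion.coe' (F.toPreGNS a) := by
    intro a
    refine ext_inner_left ℂ fun y => ?_
    induction y using UniformSpace.Completion.induction_on with
    | hp => exact isClosed_eq (by fun_prop) (by fun_prop)
    | ih x =>
      rw [← hadj, ← inner_conj_symm, hinner, PositiveLinearMap.gnsNonUnitalStarAlgHom_apply_coe,
        show ∀ z : F.PreGNS, L' (z : F.GNS) = L z from hL',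
        UniformSpace.Completion.inner_coe, PositiveLinearMap.preGNS_inner_def]
      show starRingEnd ℂ (F (star a * F.ofPreGNS x)) = _
      rw [← Complex.star_def, ← map_star F]
      simp
  refine ⟨ξ, hnorm, hvec, fun a => ?_⟩
  rw [hvec, hinner]
  exact (hL' (F.toPreGNS a)).symm

lemma vec_mem_qstates {H : Type u} [NormedAddCommGroup H] [InnerProductSpace ℂ H] [CompleteSpace H]
    (π : A →⋆ₙₐ[ℂ] (H →L[ℂ] H)) {ξ : H} (hξ : ‖ξ‖ ≤ 1) :
    (fun a => ⟪ξ, π a ξ⟫_ℂ) ∈ qstates A := by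
  refine ⟨fun a b => by simp, fun z a => by simp,
    fun a ha => ?_, fun a => ?_⟩
  · show 0 ≤ ⟪ξ, π a ξ⟫_ℂ
    rw [← CFC.sqrt_mul_sqrt_self a ha]
    nth_rw 1 [← (IsSelfAdjoint.of_nonneg (CFC.sqrt_nonneg a)).star_eq]
    rw [map_mul, map_star, mul_apply_eq_comp, ContinuousLinearMap.star_eq_adjoint,
      ContinuousLinearMap.adjoint_inner_right, inner_self_eq_norm_sq_to_K]
    exact pow_nonneg (RCLike.ofReal_nonneg.2 (norm_nonneg _)) 2
  · calc ‖⟪ξ, π a ξ⟫_ℂ‖ ≤ ‖ξ‖ * ‖π a ξ‖ := norm_inner_le_norm _ _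
      _ ≤ 1 * (‖a‖ * 1) := by
          refine mul_le_mul hξ (((π a).le_opNorm ξ).trans ?_) (norm_nonneg _) zero_le_one
          exact mul_le_mul (NonUnitalStarAlgHom.norm_apply_le π a) hξ (norm_nonneg _)
            (norm_nonneg _)
      _ = ‖a‖ := by ring

/-- The representation of a nonzero extreme quasi-state is irreducible. -/
lemma irreducible_of_extreme {f : A → ℂ} (hf : f ∈ (qstates A).extremePoints ℝ) {a₀ : A}
    (ha₀ : f a₀ ≠ 0) {H : Type u} [NormedAddCommGroup H] [InnerProductSpace ℂ H] [CompleteSpace H]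
    (π : A →⋆ₙₐ[ℂ] (H →L[ℂ] H)) {ξ : H} (hξ : ‖ξ‖ ≤ 1) (hfξ : ∀ a, f a = ⟪ξ, π a ξ⟫_ℂ)
    (hd : DenseRange fun a => π a ξ) : IsIrreducibleRep π := by
  refine ⟨⟨a₀, fun h => ha₀ (by rw [hfξ, show π a₀ = 0 from h]; simp)⟩, fun K hKc hKinv => ?_⟩
  have : CompleteSpace K := hKc.completeSpace_coe
  set x₁ : H := K.starProjection ξ with hx₁
  set x₂ : H := ξ - x₁ with hx₂
  have h1K : x₁ ∈ K := K.starProjection_apply_mem ξ
  have h2K : x₂ ∈ Kᗮ := K.sub_starProjection_mem_orthogonal ξ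
  have hcross : ∀ a, ⟪x₂, π a x₁⟫_ℂ = 0 ∧ ⟪x₁, π a x₂⟫_ℂ = 0 := fun a => by
    refine ⟨Submodule.inner_left_of_mem_orthogonal (hKinv a _ h1K) h2K, ?_⟩
    rw [← ContinuousLinearMap.adjoint_inner_left, ← ContinuousLinearMap.star_eq_adjoint,
      ← map_star]
    exact Submodule.inner_right_of_mem_orthogonal (hKinv (star a) _ h1K) h2K
  have hsplit : ξ = x₁ + x₂ := by rw [hx₂]; abel
  have hf12 : ∀ a, f a = ⟪x₁, π a x₁⟫_ℂ + ⟪x₂, π a x₂⟫_ℂ := fun a => by
    rw [hfξ, hsplit]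
    simp [(hcross a).1, (hcross a).2]
  by_cases hx₂0 : x₂ = 0
  · refine Or.inr (eq_top_iff.2 fun y _ => ?_)
    rw [hx₂0, add_zero] at hsplit
    exact (closure_minimal (by rintro _ ⟨a, rfl⟩; exact hKinv a _ (hsplit ▸ h1K)) hKc) (hd y)
  by_cases hx₁0 : x₁ = 0
  · refine Or.inl (eq_bot_iff.2 fun y hy => ?_)
    rw [hx₁0, zero_add] at hsplit
    have h0 : ∀ z, ⟪y, z⟫_ℂ = 0 := fun z => by
      refine (closure_minimal (s := Set.range fun a => π a ξ) ?_
        (isClosed_eq (by fun_prop) continuous_const)) (hd z)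
      rintro _ ⟨a, rfl⟩
      show ⟪y, π a ξ⟫_ℂ = 0
      rw [← ContinuousLinearMap.adjoint_inner_left, ← ContinuousLinearMap.star_eq_adjoint,
        ← map_star]
      exact Submodule.inner_right_of_mem_orthogonal (hKinv (star a) _ hy) (hsplit ▸ h2K)
    exact inner_self_eq_zero.1 (h0 y)
  have hc₁ : 0 < ‖x₁‖ := norm_pos_iff.2 hx₁0
  have hc₂ : 0 < ‖x₂‖ := norm_pos_iff.2 hx₂0
  have hsum : ‖ξ‖ ^ 2 = ‖x₁‖ ^ 2 + ‖x₂‖ ^ 2 := by
    conv_lhs => rw [hsplit]
    rw [sq, sq, sq]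
    exact norm_add_sq_eq_norm_sq_add_norm_sq_of_inner_eq_zero _ _
      (Submodule.inner_right_of_mem_orthogonal h1K h2K)
  have hs : 0 < ‖ξ‖ := norm_pos_iff.2 fun h => ha₀ (by rw [hfξ, h]; simp)
  have hg : ∀ x : H, 0 < ‖x‖ → (fun a => ⟪((‖ξ‖ / ‖x‖ : ℝ) : ℂ) • x,
      π a (((‖ξ‖ / ‖x‖ : ℝ) : ℂ) • x)⟫_ℂ) ∈ qstates A := fun x hx => by
    refine vec_mem_qstates π ?_
    rw [norm_smul, Complex.norm_real, Real.norm_of_nonneg (by positivity),
      div_mul_cancel₀ _ hx.ne']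
    exact hξ
  obtain ⟨g₁, hg₁⟩ : ∃ g : A → ℂ, g = fun a => ⟪((‖ξ‖ / ‖x₁‖ : ℝ) : ℂ) • x₁,
      π a (((‖ξ‖ / ‖x₁‖ : ℝ) : ℂ) • x₁)⟫_ℂ := ⟨_, rfl⟩
  obtain ⟨g₂, hg₂⟩ : ∃ g : A → ℂ, g = fun a => ⟪((‖ξ‖ / ‖x₂‖ : ℝ) : ℂ) • x₂,
      π a (((‖ξ‖ / ‖x₂‖ : ℝ) : ℂ) • x₂)⟫_ℂ := ⟨_, rfl⟩
  have hscale : ∀ (x : H) a, ⟪((‖ξ‖ / ‖x‖ : ℝ) : ℂ) • x,
      π a (((‖ξ‖ / ‖x‖ : ℝ) : ℂ) • x)⟫_ℂ = (((‖ξ‖ / ‖x‖) ^ 2 : ℝ) : ℂ) * ⟪x, π a x⟫_ℂ := by
    intro x a
    rw [map_smul, inner_smul_left, inner_smul_right, Complex.conj_ofReal]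
    push_cast
    ring
  have hseg : f ∈ openSegment ℝ g₁ g₂ := by
    refine ⟨‖x₁‖ ^ 2 / ‖ξ‖ ^ 2, ‖x₂‖ ^ 2 / ‖ξ‖ ^ 2, by positivity, by positivity, ?_, ?_⟩
    · rw [← add_div, ← hsum, div_self (by positivity)]
    · funext a
      simp only [Pi.add_apply, Pi.smul_apply, Complex.real_smul, hg₁, hg₂, hscale, hf12 a]
      have hξC : (‖ξ‖ : ℂ) ≠ 0 := by exact_mod_cast hs.ne'
      have h1C : (‖x₁‖ : ℂ) ≠ 0 := by exact_mod_cast hc₁.ne'
      have h2C : (‖x₂‖ : ℂ) ≠ 0 := by exact_mod_cast hc₂.ne'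
      push_cast
      field_simp
  have heq : g₁ = f := hf.2 (hg₁ ▸ hg _ hc₁) (hg₂ ▸ hg _ hc₂) hseg
  obtain ⟨r, hr, hrf⟩ : ∃ r : ℝ, r ≠ 0 ∧ ∀ a, ⟪x₁, π a x₁⟫_ℂ = (r : ℂ) * f a := by
    refine ⟨(‖x₁‖ / ‖ξ‖) ^ 2, by positivity, fun a => ?_⟩
    rw [← heq, hg₁]
    simp only [hscale]
    rw [← mul_assoc, ← Complex.ofReal_mul, ← mul_pow]
    rw [div_mul_div_cancel₀ hs.ne', div_self hc₁.ne']
    simp
  have hx : x₁ = (r : ℂ) • ξ := by
    have h0 : ∀ z, ⟪x₁ - (r : ℂ) • ξ, z⟫_ℂ = 0 := fun z => by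
      refine (closure_minimal (s := Set.range fun a => π a ξ) ?_
        (isClosed_eq (by fun_prop) continuous_const)) (hd z)
      rintro _ ⟨a, rfl⟩
      show ⟪x₁ - (r : ℂ) • ξ, π a ξ⟫_ℂ = 0
      rw [inner_sub_left, inner_smul_left, Complex.conj_ofReal, ← hfξ, sub_eq_zero, ← hrf]
      conv_lhs => rw [hsplit]
      simp [inner_add_right, (hcross a).2]
    exact sub_eq_zero.1 (inner_self_eq_zero.1 (h0 _))
  refine Or.inr (eq_top_iff.2 fun y _ => ?_)
  have hξK : ξ ∈ K := by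
    have : ξ = ((r : ℂ)⁻¹) • x₁ := by rw [hx, inv_smul_smul₀ (by exact_mod_cast hr)]
    rw [this]; exact K.smul_mem _ h1K
  exact (closure_minimal (by rintro _ ⟨a, rfl⟩; exact hKinv a _ hξK) hKc) (hd y)

/-- Irreducible representations from linear constraints which are extreme on the quasi-states. -/
lemma exists_irrep {ι : Type*} (a : ι → A) (r : ι → ℝ)
    (hle : ∀ i, ∀ f ∈ qstates A, (f (a i)).re ≤ r i) (b : A) {f₀ : A → ℂ} (hf₀ : f₀ ∈ qstates A)
    (hf₀a : ∀ i, (f₀ (a i)).re = r i) (hf₀b : 0 < (f₀ b).re) :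
    ∃ (H : Type u) (_ : NormedAddCommGroup H) (_ : InnerProductSpace ℂ H) (_ : CompleteSpace H)
      (π : A →⋆ₙₐ[ℂ] (H →L[ℂ] H)) (ξ : H), IsIrreducibleRep π ∧ ‖ξ‖ ≤ 1 ∧
        (∀ i, (⟪ξ, π (a i) ξ⟫_ℂ).re = r i) ∧ 0 < (⟪ξ, π b ξ⟫_ℂ).re ∧
        DenseRange fun c => π c ξ := by
  set F₀ := {f ∈ qstates A | ∀ i, (f (a i)).re = r i} with hF₀
  have hF₀c : IsCompact F₀ := by
    have : F₀ = qstates A ∩ ⋂ i, {f | (f (a i)).re = r i} := by ext f; simp [F₀]
    rw [this]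
    exact isCompact_qstates.inter_right
      (isClosed_iInter fun i => isClosed_eq (by fun_prop) continuous_const)
  obtain ⟨m, hm, hmax⟩ := hF₀c.exists_isMaxOn ⟨f₀, hf₀, hf₀a⟩
    (f := fun f => (f b).re) (by fun_prop : Continuous fun f : A → ℂ => (f b).re).continuousOn
  have hmpos : 0 < (m b).re := hf₀b.trans_le (hmax ⟨hf₀, hf₀a⟩)
  set F₁ := {f ∈ F₀ | (f b).re = (m b).re} with hF₁
  have hF₁c : IsCompact F₁ := hF₀c.inter_right (isClosed_eq (by fun_prop) continuous_const)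
  have hre : ∀ (f g : A → ℂ) (s t : ℝ) (c : A),
      ((s • f + t • g) c).re = s * (f c).re + t * (g c).re := fun f g s t c => by
    simp [Complex.real_smul]
  have hext₀ : IsExtreme ℝ (qstates A) F₀ := by
    refine ⟨fun f hf => hf.1, fun g₁ hg₁ g₂ hg₂ f hf hseg => ⟨hg₁, fun i => ?_⟩⟩
    obtain ⟨s, t, hs, ht, hst, rfl⟩ := hseg
    have h := hf.2 i
    rw [hre] at h
    obtain rfl : t = 1 - s := by linarith
    nlinarith [hle i g₁ hg₁, mul_le_mul_of_nonneg_left (hle i g₂ hg₂) ht.le]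
  have hext₁ : IsExtreme ℝ F₀ F₁ := by
    refine ⟨fun f hf => hf.1, fun g₁ hg₁ g₂ hg₂ f hf hseg => ⟨hg₁, ?_⟩⟩
    obtain ⟨s, t, hs, ht, hst, rfl⟩ := hseg
    have h := hf.2
    rw [hre] at h
    obtain rfl : t = 1 - s := by linarith
    have h1 : (g₁ b).re ≤ (m b).re := hmax hg₁
    have h2 : (g₂ b).re ≤ (m b).re := hmax hg₂
    nlinarith [h1, mul_le_mul_of_nonneg_left h2 ht.le]
  obtain ⟨f, hf⟩ := hF₁c.extremePoints_nonempty ⟨m, hm, rfl⟩
  have hfQ : f ∈ qstates A := hf.1.1.1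
  have hfe := (hext₀.trans hext₁).extremePoints_subset_extremePoints hf
  obtain ⟨ξ, hξ, hvec, hfξ⟩ := exists_gns_vector hfQ
  have hfb : 0 < (f b).re := hf.1.2 ▸ hmpos
  have hd : DenseRange fun c => (qMap f hfQ).gnsNonUnitalStarAlgHom c ξ := by
    rw [show (fun c => (qMap f hfQ).gnsNonUnitalStarAlgHom c ξ) =
      (fun c => UniformSpace.Completion.coe' ((qMap f hfQ).toPreGNS c)) from funext hvec]
    exact UniformSpace.Completion.denseRange_coe.comp
      (qMap f hfQ).toPreGNS.surjective.denseRange (UniformSpace.Completion.continuous_coe _)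
  exact ⟨(qMap f hfQ).GNS, _, _, inferInstance, (qMap f hfQ).gnsNonUnitalStarAlgHom, ξ,
    irreducible_of_extreme hfe (a₀ := b) (fun h => by simp [h] at hfb) _ hξ hfξ hd, hξ,
    fun i => by rw [← hfξ]; exact hf.1.1.2 i, by rw [← hfξ]; exact hfb, hd⟩

end Vale.Agent.P070
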