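import Mathlib

/-!
Notions for Naimark's problem (P070).
-/

universe u

namespace Vale.Agent.P070

variable {A : Type u} [NonUnitalCStarAlgebra A]
variable {H : Type u} [NormedAddCommGroup H] [InnerProductSpace ℂ H] [CompleteSpace H]
variable {K : Type u} [NormedAddCommGroup K] [InnerProductSpace ℂ K] [CompleteSpace K]

/-- The bounded operators on a Hilbert space. -/
abbrev Op (H : Type u) [NormedAddCommGroup H] [InnerProductSpace ℂ H] : Type u := H →L[ℂ] H

/-- A *-representation of `A` on a Hilbert space. -/
abbrev Rep (A H : Type u) [NonUnitalCStarAlgebra A] [NormedAddCommGroup H] [InnerProductSpace ℂ H]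
    [CompleteSpace H] : Type u := A →⋆ₙₐ[ℂ] Op H

/-- The operator of `a` in the representation. -/
noncomputable abbrev op (π : Rep A H) (a : A) : Op H := π a

/-- The action of `a` on a vector. -/
noncomputable abbrev act (π : Rep A H) (a : A) (x : H) : H := π a x

/-- A nonzero representation without closed invariant subspaces other than `⊥` and `⊤`. -/
def IsIrreducibleRep (π : Rep A H) : Prop :=
  (∃ a : A, op π a ≠ 0) ∧ ∀ M : Submodule ℂ H, IsClosed (M : Set H) →
    (∀ a : A, ∀ x ∈ M, act π a x ∈ M) → M = ⊥ ∨ M = ⊤

/-- Unitary equivalence of two representations. -/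
def UnitarilyEquivalent (π : Rep A H) (σ : Rep A K) : Prop :=
  ∃ U : H ≃ₗᵢ[ℂ] K, ∀ a x, U (act π a x) = act σ a (U x)

variable (A) in
/-- Property (N): the algebra is nonzero and any two irreducible representations are unitarily
equivalent. -/
def PropertyN : Prop :=
  Nontrivial A ∧
    ∀ (H₁ : Type u) [NormedAddCommGroup H₁] [InnerProductSpace ℂ H₁] [CompleteSpace H₁]
      (H₂ : Type u) [NormedAddCommGroup H₂] [InnerProductSpace ℂ H₂] [CompleteSpace H₂]
      (π : Rep A H₁) (σ : Rep A H₂),
      IsIrreducibleRep π → IsIrreducibleRep σ → UnitarilyEquivalent π σ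

/-- `n` normalises `C`. -/
def Normalizes (C : NonUnitalStarSubalgebra ℂ A) (n : A) : Prop :=
  ∀ c ∈ C, star n * c * n ∈ C ∧ n * c * star n ∈ C

/-- `C` is a maximal abelian self-adjoint subalgebra whose normalisers span a dense subspace. -/
def IsRegularMasa (C : NonUnitalStarSubalgebra ℂ A) : Prop :=
  (∀ c ∈ C, ∀ d ∈ C, c * d = d * c) ∧ (∀ a : A, (∀ c ∈ C, a * c = c * a) → a ∈ C) ∧
    Dense ((Submodule.span ℂ {n : A | Normalizes C n} : Submodule ℂ A) : Set A)

/-- The representation is faithful and its range consists of exactly the compact operators. -/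
def IsOntoCompacts (π : Rep A H) : Prop :=
  Function.Injective (op π) ∧ Set.range (op π) = {T : Op H | IsCompactOperator T}

/-- The vectors on which every element `a` of `S` acts as the real scalar `χ a`. -/
def EigenSpace (π : Rep A H) (S : Set A) (χ : S → ℝ) : Set H :=
  {x | ∀ a : S, act π a x = (χ a : ℂ) • x}

/-- The set is contained in the closure of a set of cardinality below the continuum. -/
def IsSmallSet (X : Set H) : Prop :=
  ∃ D : Set H, Cardinal.mk D < Cardinal.continuum.{u} ∧ X ⊆ closure D

/-- A set of self-adjoint elements is diagonal in the representation, with all joint eigenspaces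
small. -/
def DiagonalSmall (π : Rep A H) : Prop :=
  ∃ S : Set A, (∀ a ∈ S, star a = a) ∧
    Dense ((Submodule.span ℂ (⋃ χ : S → ℝ, EigenSpace π S χ) : Submodule ℂ H) : Set H) ∧
    ∀ χ : S → ℝ, IsSmallSet (EigenSpace π S χ)

variable (A) in
/-- Some irreducible representation has `DiagonalSmall`. -/
def HasDiagonalSmall : Prop :=
  ∃ (H : Type u) (_ : NormedAddCommGroup H) (_ : InnerProductSpace ℂ H) (_ : CompleteSpace H)
    (π : Rep A H), IsIrreducibleRep π ∧ DiagonalSmall π

variable (A) in
/-- `A` is isomorphic to the algebra of compact operators on some complex Hilbert space. -/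
def IsElementary : Prop :=
  ∃ (H : Type u) (_ : NormedAddCommGroup H) (_ : InnerProductSpace ℂ H) (_ : CompleteSpace H)
    (φ : Rep A H), IsOntoCompacts φ

end Vale.Agent.P070
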