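import Vale.Agent.P070.Density
import Vale.Agent.P070.Branch

/-!
Shrinking a region so that finitely many operators become small on it.
-/

universe u

set_option linter.unusedSectionVars false

namespace Vale.Agent.P070

open InnerProductSpace ComplexOrder
open Vale.Agent.P133

variable {A : Type u} [NonUnitalCStarAlgebra A] [PartialOrder A] [StarOrderedRing A]
variable {H : Type u} [NormedAddCommGroup H] [InnerProductSpace ℂ H] [CompleteSpace H]
variable {π : A →⋆ₙₐ[ℂ] (H →L[ℂ] H)}

/-- The operator `z + π a`. -/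
noncomputable def unitOp (π : A →⋆ₙₐ[ℂ] (H →L[ℂ] H)) (p : ℂ × A) : H →L[ℂ] H :=
  p.1 • 1 + π p.2

lemma unitOp_apply (p : ℂ × A) (v : H) : unitOp π p v = p.1 • v + π p.2 v := by
  simp [unitOp]

/-- If finitely many operators are small at a unit vector of a region, they are small on a whole
smaller region. -/
lemma exists_excised (hπ : IsIrreducibleRep π) {ι : Type*} [Fintype ι] (p : ι → ℂ × A) {k : A}
    (hk : 0 ≤ k) {ψ : H} (hψ : ‖ψ‖ = 1) (hψR : ψ ∈ region π k) {ε : ℝ} (hε : 0 < ε)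
    (hp : ∀ i, ‖unitOp π (p i) ψ‖ ≤ ε) :
    ∃ b : A, 0 ≤ b ∧ b ≠ 0 ∧ RMem k b ∧
      ∀ i, ∀ u ∈ region π b, ‖unitOp π (p i) u‖ ≤ 2 * ε * ‖u‖ := by
  classical
  set n := Fintype.card ι with hn
  set η : ℝ := 1 / ((n : ℝ) + 1) with hη
  have hη0 : 0 < η := by positivity
  have hc : ∀ i, ∃ c : A, ‖c‖ ≤ 1 ∧ ‖π c ψ - ((ε⁻¹ : ℝ) : ℂ) • unitOp π (p i) ψ‖ ≤ η := fun i => by
    refine exists_contraction_near hπ hψ ?_ hη0
    rw [norm_smul, Complex.norm_real, Real.norm_of_nonneg (by positivity), inv_mul_le_iff₀ hε,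
      mul_one]
    exact hp i
  choose c hc1 hcψ using hc
  set Q : ι → H →L[ℂ] H := fun i => unitOp π (p i) - (ε : ℂ) • π (c i) with hQ
  have hQψ : ∀ i, ‖Q i ψ‖ ≤ ε * η := fun i => by
    have e : Q i ψ = -((ε : ℂ) • (π (c i) ψ - ((ε⁻¹ : ℝ) : ℂ) • unitOp π (p i) ψ)) := by
      simp only [Q, sub_apply, smul_apply, smul_sub, smul_smul]
      rw [← Complex.ofReal_mul, mul_inv_cancel₀ hε.ne', Complex.ofReal_one, one_smul]
      abel
    rw [e, norm_neg, norm_smul, Complex.norm_real, Real.norm_of_nonneg hε.le]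
    exact mul_le_mul_of_nonneg_left (hcψ i) hε.le
  set t : ℝ := (ε ^ 2)⁻¹ with ht
  have ht0 : 0 < t := by positivity
  obtain ⟨v, hv⟩ : ∃ v, t * ∑ i, ‖Q i (π k v)‖ ^ 2 < ‖π k v‖ ^ 2 := by
    have hψ1 : t * ∑ i, ‖Q i ψ‖ ^ 2 < ‖ψ‖ ^ 2 := by
      rw [hψ, one_pow]
      calc t * ∑ i, ‖Q i ψ‖ ^ 2 ≤ t * ∑ _i : ι, (ε * η) ^ 2 := by
            refine mul_le_mul_of_nonneg_left (Finset.sum_le_sum fun i _ => ?_) ht0.le
            exact pow_le_pow_left₀ (norm_nonneg _) (hQψ i) 2
        _ = (n : ℝ) * η * η := by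
            rw [Finset.sum_const, nsmul_eq_mul, ht, Finset.card_univ, ← hn]
            field_simp
        _ < 1 := by
            have h1 : (n : ℝ) * η < 1 := by
              rw [hη, mul_one_div, div_lt_one (by positivity)]; linarith
            have h2 : η ≤ 1 := by rw [hη, div_le_one (by positivity)]; linarith [n.cast_nonneg (α := ℝ)]
            nlinarith
    have hopen : IsOpen {u : H | t * ∑ i, ‖Q i u‖ ^ 2 < ‖u‖ ^ 2} :=
      isOpen_lt (continuous_const.mul (continuous_finsetSum _ fun i _ =>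
        ((Q i).continuous.norm.pow 2))) (continuous_norm.pow 2)
    rw [← SetLike.mem_coe, region, Submodule.topologicalClosure_coe] at hψR
    obtain ⟨_, hu, v, rfl⟩ := mem_closure_iff.1 hψR _ hopen hψ1
    exact ⟨v, hu⟩
  set w : ι → A := fun i => (p i).1 • k + (p i).2 * k - (ε : ℂ) • (c i * k) with hw
  have hwQ : ∀ i x, π (w i) x = Q i (π k x) := fun i x => by
    simp only [w, Q, map_sub, map_add, map_smul, sub_apply, add_apply, smul_apply, rep_mul,
      unitOp_apply]
  obtain ⟨T, hT⟩ : ∃ T : A, T = star k * k - (t : ℂ) • ∑ i, star (w i) * w i := ⟨_, rfl⟩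
  have hTsa : IsSelfAdjoint T := by
    show star T = T
    simp [hT, star_sub, star_smul, star_sum, star_mul, Complex.conj_ofReal]
  have hTv : ∀ x, (⟪x, π T x⟫_ℂ).re = ‖π k x‖ ^ 2 - t * ∑ i, ‖Q i (π k x)‖ ^ 2 := fun x => by
    simp only [hT, map_sub, map_smul, map_sum, sub_apply, smul_apply, sum_apply, inner_sub_right,
      inner_smul_right, inner_sum, rep_sq, ← Complex.ofReal_sum, ← Complex.ofReal_mul,
      Complex.sub_re, Complex.ofReal_re, hwQ]
  set d := (⟪v, π T v⟫_ℂ).re with hd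
  have hd0 : 0 < d := by rw [hd, hTv]; linarith
  set κ := d / (2 * (‖v‖ ^ 2 + 1)) with hκd
  have hκ : 0 < κ := by positivity
  set g := ramp κ T with hg
  have hgs : star g = g := star_ramp _ _
  have hgTg : 0 ≤ g * T * g := by
    have hid : cfcₙ (fun s : ℝ => s) T = T := cfcₙ_id' ℝ T hTsa
    have hc' := continuous_rampFun κ
    conv_rhs => arg 1; arg 2; rw [← hid]
    rw [hg, ramp, ← cfcₙ_mul _ _ T hc'.continuousOn (rampFun_zero κ) (by fun_prop) (by simp),
      ← cfcₙ_mul (fun s => rampFun κ s * s) _ T (hc'.mul continuous_id').continuousOn (by simp)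
        hc'.continuousOn (rampFun_zero κ)]
    refine cfcₙ_nonneg fun s _ => ?_
    rcases le_total s κ with h | h
    · have h0 : rampFun κ s = 0 := by
        simp only [rampFun]
        rw [max_eq_left hκ.le, max_eq_right (by linarith : s - κ ≤ 0)]
        simp
      simp [h0]
    · have h1 : 0 ≤ rampFun κ s := le_min zero_le_one (by positivity)
      have h2 : 0 ≤ s := hκ.le.trans h
      positivity
  obtain ⟨y, hy⟩ : ∃ y : A, y = k * g := ⟨_, rfl⟩
  have hy0 : y ≠ 0 := by
    intro hy0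
    have hle : ∀ x : H, (⟪x, π (g * T * g) x⟫_ℂ).re ≤ 0 := fun x => by
      rw [rep_mul, rep_mul]
      nth_rw 1 [← hgs]
      rw [← rep_adj, star_star, hTv]
      have hz : π k (π g x) = 0 := by rw [← rep_mul, ← hy, hy0]; simp
      simp [hz]
    obtain ⟨r, hr⟩ : ∃ r, r = CFC.sqrt (g * T * g) := ⟨_, rfl⟩
    have hrr : star r * r = g * T * g := by
      rw [hr, (IsSelfAdjoint.of_nonneg (CFC.sqrt_nonneg _)).star_eq,
        CFC.sqrt_mul_sqrt_self _ hgTg]
    have hr0 : ∀ x, π r x = 0 := fun x => norm_eq_zero.1 (by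
      have := hle x
      rw [← hrr, rep_sq, Complex.ofReal_re] at this
      exact (pow_eq_zero_iff two_ne_zero).1 (le_antisymm this (sq_nonneg _)))
    have hgTg0 : π (g * T * g) = 0 := ContinuousLinearMap.ext fun x => by
      rw [← hrr, rep_mul, hr0]; simp
    have hlow : ∀ s ∈ quasispectrum ℝ T, rampFun κ s * s * rampFun κ s = 0 → s ≤ 2 * κ := by
      intro s _ h0
      by_contra hlt
      push Not at hlt
      have h1 : rampFun κ s = 1 := by
        simp only [rampFun]
        rw [max_eq_left hκ.le, max_eq_left (by linarith : (0:ℝ) ≤ s - κ)]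
        exact min_eq_left ((one_le_div hκ).2 (by linarith))
      rw [h1, one_mul, mul_one] at h0
      linarith
    have hc' := continuous_rampFun κ
    have hπg : ∀ s ∈ quasispectrum ℝ (π T), rampFun κ s * s * rampFun κ s = 0 := by
      intro s hs
      have hTs : IsSelfAdjoint (π T) := hTsa.map π
      have hn' := norm_apply_le_norm_cfcₙ (fun s => rampFun κ s * s * rampFun κ s) (π T) hs
        ((hc'.mul continuous_id').mul hc').continuousOn (by simp) hTs
      have he : cfcₙ (fun s => rampFun κ s * s * rampFun κ s) (π T) = 0 := by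
        rw [cfcₙ_mul (fun s => rampFun κ s * s) _ (π T) (hc'.mul continuous_id').continuousOn
            (by simp) hc'.continuousOn (rampFun_zero κ),
          cfcₙ_mul _ _ (π T) hc'.continuousOn (rampFun_zero κ) (by fun_prop) (by simp),
          cfcₙ_id' ℝ (π T) hTs]
        rw [← hgTg0, map_mul, map_mul, hg, ramp,
          NonUnitalStarAlgHomClass.map_cfcₙ π (rampFun κ) T hc'.continuousOn (rampFun_zero κ)
            (map_continuous π) hTsa hTs]
      rw [he, norm_zero] at hn'
      exact norm_le_zero_iff.1 hn'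
    have hlow' : ∀ s ∈ quasispectrum ℝ (π T), s ≤ 2 * κ := fun s hs => by
      by_contra hlt
      push Not at hlt
      have h1 : rampFun κ s = 1 := by
        simp only [rampFun]
        rw [max_eq_left hκ.le, max_eq_left (by linarith : (0:ℝ) ≤ s - κ)]
        exact min_eq_left ((one_le_div hκ).2 (by linarith))
      have := hπg s hs
      rw [h1, one_mul, mul_one] at this
      linarith
    have hTs : IsSelfAdjoint (π T) := hTsa.map π
    have hub : (⟪v, π T v⟫_ℂ).re ≤ 2 * κ * ‖v‖ ^ 2 := by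
      set P := cfcₙ (fun s : ℝ => max s 0) (π T) with hP
      set N := cfcₙ (fun s : ℝ => max (-s) 0) (π T) with hN
      have hsplit : π T = P - N := by
        rw [hP, hN, ← cfcₙ_sub _ _ (π T) (by fun_prop) (by simp) (by fun_prop) (by simp)]
        conv_lhs => rw [← cfcₙ_id' ℝ (π T) hTs]
        refine cfcₙ_congr fun s _ => ?_
        rcases le_total s 0 with h | h
        · rw [max_eq_right h, max_eq_left (by linarith : (0:ℝ) ≤ -s)]; ring
        · rw [max_eq_left h, max_eq_right (by linarith : -s ≤ (0:ℝ))]; ring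
      have hPn : ‖P‖ ≤ 2 * κ := norm_cfcₙ_le fun s hs => by
        rw [Real.norm_of_nonneg (le_max_right _ _)]
        exact max_le (hlow' s hs) (by positivity)
      have hNp : N.IsPositive := (ContinuousLinearMap.nonneg_iff_isPositive N).1
        (cfcₙ_nonneg fun s _ => le_max_right _ _)
      have h1 : (⟪v, P v⟫_ℂ).re ≤ 2 * κ * ‖v‖ ^ 2 := by
        refine ((Complex.re_le_norm _).trans (norm_inner_le_norm _ _)).trans ?_
        calc ‖v‖ * ‖P v‖ ≤ ‖v‖ * (2 * κ * ‖v‖) :=
              mul_le_mul_of_nonneg_left (P.le_of_opNorm_le hPn v) (norm_nonneg _)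
          _ = _ := by ring
      have h2 : 0 ≤ (⟪v, N v⟫_ℂ).re := hNp.re_inner_nonneg_right v
      rw [hsplit, sub_apply, inner_sub_right, Complex.sub_re]
      linarith
    have h3 : 2 * κ * (‖v‖ ^ 2 + 1) = d := by rw [hκd]; field_simp
    rw [← hd] at hub
    nlinarith
  refine ⟨y * star y, mul_star_self_nonneg y, fun h => hy0 ?_, ?_, fun i u hu => ?_⟩
  · exact (CStarRing.mul_star_self_eq_zero_iff y).1 h
  · rw [hy, mul_assoc]
    exact rmem_mul k _
  have hle : region π (y * star y) ≤ region π y := region_mono (rmem_mul y (star y))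
  have hu' := hle hu
  rw [← SetLike.mem_coe, region, Submodule.topologicalClosure_coe] at hu'
  refine closure_minimal (t := {u | ‖unitOp π (p i) u‖ ≤ 2 * ε * ‖u‖}) ?_
    (isClosed_le (by fun_prop) (by fun_prop)) hu'
  rintro _ ⟨x, rfl⟩
  show ‖unitOp π (p i) (π y x)‖ ≤ 2 * ε * ‖π y x‖
  have hnn : 0 ≤ ‖π y x‖ ^ 2 - t * ∑ j, ‖Q j (π y x)‖ ^ 2 := by
    rw [hy, rep_mul, ← hTv, ← rep_adj π T, hTsa.star_eq, ← inner_conj_symm, Complex.conj_re]
    have h0 := (vec_mem_qstates π (ξ := ((‖x‖ + 1)⁻¹ : ℝ) • x) ?_).2.2.1 _ hgTg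
    · have h1 := (Complex.le_def.1 h0).1
      simp only [← Complex.coe_smul, map_smul, inner_smul_left, inner_smul_right,
        Complex.conj_ofReal, Complex.re_ofReal_mul, Complex.zero_re] at h1
      rw [← mul_assoc] at h1
      have h2 : 0 ≤ (⟪x, π (g * T * g) x⟫_ℂ).re :=
        le_of_mul_le_mul_left (by rw [mul_zero]; exact h1) (by positivity)
      rw [rep_mul, rep_mul] at h2
      nth_rw 1 [← hgs] at h2
      rw [← rep_adj, star_star] at h2
      exact h2
    · rw [norm_smul, Real.norm_of_nonneg (by positivity), inv_mul_le_iff₀ (by positivity)]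
      linarith
  have hi : t * ‖Q i (π y x)‖ ^ 2 ≤ ‖π y x‖ ^ 2 := by
    have := Finset.single_le_sum (f := fun j => ‖Q j (π y x)‖ ^ 2) (fun j _ => sq_nonneg _)
      (Finset.mem_univ i)
    nlinarith [mul_le_mul_of_nonneg_left this ht0.le]
  have hQle : ‖Q i (π y x)‖ ≤ ε * ‖π y x‖ := by
    rw [ht, inv_mul_le_iff₀ (by positivity)] at hi
    exact (sq_le_sq₀ (norm_nonneg _) (by positivity)).1 (by rw [mul_pow]; exact hi)
  have hcle : ‖(ε : ℂ) • π (c i) (π y x)‖ ≤ ε * ‖π y x‖ := by
    rw [norm_smul, Complex.norm_real, Real.norm_of_nonneg hε.le]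
    refine mul_le_mul_of_nonneg_left (((π (c i)).le_opNorm _).trans
      (mul_le_of_le_one_left (norm_nonneg _) ?_)) hε.le
    exact (NonUnitalStarAlgHom.norm_apply_le π _).trans (hc1 i)
  calc ‖unitOp π (p i) (π y x)‖ = ‖Q i (π y x) + (ε : ℂ) • π (c i) (π y x)‖ := by
        simp only [Q, sub_apply, smul_apply, sub_add_cancel]
    _ ≤ _ := (norm_add_le _ _).trans (by linarith)

end Vale.Agent.P070
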