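import Vale.Agent.P070.Eigen
import Vale.Agent.P070.Excise

/-!
A diagonal set of self-adjoint elements with small eigenspaces rules out branching.
-/

universe u

set_option linter.unusedSectionVars false

namespace Vale.Agent.P070

open InnerProductSpace ComplexOrder Cardinal
open Vale.Agent.P133

variable {A : Type u} [NonUnitalCStarAlgebra A] [PartialOrder A] [StarOrderedRing A]
variable {H : Type u} [NormedAddCommGroup H] [InnerProductSpace ℂ H] [CompleteSpace H]
variable {π : A →⋆ₙₐ[ℂ] (H →L[ℂ] H)} {S : Set A}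

instance instCompleteEigSub (χ : S → ℝ) : CompleteSpace (eigSub π S χ) :=
  (isClosed_eigSub χ).completeSpace_coe

lemma proj_zero_of_span (hS : ∀ a ∈ S, star a = a) {χ : S → ℝ} {B : Finset (S → ℝ)} (hχ : χ ∉ B)
    {w : H} (hw : w ∈ Submodule.span ℂ (⋃ ψ ∈ B, (eigSub π S ψ : Set H))) :
    (eigSub π S χ).starProjection w = 0 := by
  induction hw using Submodule.span_induction with
  | mem x hx =>
    simp only [Set.mem_iUnion, SetLike.mem_coe] at hx
    obtain ⟨ψ, hψ, hx⟩ := hx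
    rw [Submodule.starProjection_apply_eq_zero_iff, Submodule.mem_orthogonal]
    exact fun y hy => eig_orth hS (fun h => hχ (by rw [h]; exact hψ)) hy hx
  | zero => simp
  | add a b _ _ iha ihb => rw [map_add, iha, ihb, add_zero]
  | smul z a _ iha => rw [map_smul, iha, smul_zero]

lemma exists_finite_approx (hd : Dense ((Submodule.span ℂ (⋃ χ : S → ℝ, EigenSpace π S χ) :
      Submodule ℂ H) : Set H)) (v : H) {δ : ℝ} (hδ : 0 < δ) :
    ∃ (B : Finset (S → ℝ)) (w : H),
      w ∈ Submodule.span ℂ (⋃ ψ ∈ B, (eigSub π S ψ : Set H)) ∧ ‖v - w‖ ≤ δ := by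
  classical
  obtain ⟨w, hw, hdist⟩ := Metric.mem_closure_iff.1 (hd v) δ hδ
  rw [dist_eq_norm] at hdist
  suffices h : ∀ u ∈ Submodule.span ℂ (⋃ χ : S → ℝ, EigenSpace π S χ), ∃ B : Finset (S → ℝ),
      u ∈ Submodule.span ℂ (⋃ ψ ∈ B, (eigSub π S ψ : Set H)) by
    obtain ⟨B, hB⟩ := h w hw
    exact ⟨B, w, hB, hdist.le⟩
  intro u hu
  induction hu using Submodule.span_induction with
  | mem x hx =>
    obtain ⟨χ, hx⟩ := Set.mem_iUnion.1 hx
    exact ⟨{χ}, Submodule.subset_span (Set.mem_iUnion₂.2 ⟨χ, Finset.mem_singleton_self χ, hx⟩)⟩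
  | zero => exact ⟨∅, Submodule.zero_mem _⟩
  | add a b _ _ iha ihb =>
    obtain ⟨Ba, ha⟩ := iha
    obtain ⟨Bb, hb⟩ := ihb
    exact ⟨Ba ∪ Bb, add_mem
      (Submodule.span_mono (Set.biUnion_subset_biUnion_left (Finset.subset_union_left)) ha)
      (Submodule.span_mono (Set.biUnion_subset_biUnion_left (Finset.subset_union_right)) hb)⟩
  | smul z a _ iha =>
    obtain ⟨Ba, ha⟩ := iha
    exact ⟨Ba, Submodule.smul_mem _ _ ha⟩

lemma small_biUnion {ι : Type u} (B : Finset ι) (D : ι → Set H)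
    (hD : ∀ i ∈ B, Cardinal.mk (D i) < Cardinal.continuum.{u}) :
    Cardinal.mk (⋃ i ∈ B, D i : Set H) < Cardinal.continuum.{u} := by
  classical
  induction B using Finset.induction with
  | empty => simpa using Cardinal.continuum_pos
  | insert i B hi ih =>
    rw [Finset.set_biUnion_insert]
    exact (Cardinal.mk_union_le _ _).trans_lt (Cardinal.add_lt_of_lt Cardinal.aleph0_le_continuum
      (hD i (Finset.mem_insert_self i B)) (ih fun j hj => hD j (Finset.mem_insert_of_mem hj)))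

lemma exists_avoid (hN : PropertyN A) (hπ : IsIrreducibleRep π) (hB : Branches A)
    (hsm : ∀ χ : S → ℝ, IsSmallSet (EigenSpace π S χ)) {k : A} (hk : 0 ≤ k) (hk0 : k ≠ 0)
    (B : Finset (S → ℝ)) (P : Finset H) :
    ∃ v ∈ region π k, ‖v‖ = 1 ∧ (∀ χ ∈ B, ∀ x ∈ eigSub π S χ, ⟪x, v⟫_ℂ = 0) ∧
      ∀ p ∈ P, ⟪p, v⟫_ℂ = 0 := by
  classical
  choose D hD hDsub using hsm
  by_contra h
  push Not at h
  refine region_not_small hN hπ hB hk hk0 (small_of_detect (isClosed_region k)
    (D := (P : Set H) ∪ ⋃ χ ∈ B, D χ) ?_ fun v hv hvd => ?_)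
  · exact (Cardinal.mk_union_le _ _).trans_lt (Cardinal.add_lt_of_lt Cardinal.aleph0_le_continuum
      ((Cardinal.lt_aleph0_of_finite _).trans Cardinal.aleph0_lt_continuum)
      (small_biUnion B D fun i _ => hD i))
  by_contra hv0
  obtain ⟨p, hp, hne⟩ := h (((‖v‖⁻¹ : ℝ) : ℂ) • v) (Submodule.smul_mem _ _ hv)
    (by rw [norm_smul, Complex.norm_real, norm_inv, norm_norm,
      inv_mul_cancel₀ (norm_ne_zero_iff.2 hv0)])
    (fun χ hχ x hx => by
      have h0 : ⟪x, v⟫_ℂ = 0 := closure_minimal (t := {x | ⟪x, v⟫_ℂ = 0})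
        (fun d hd => hvd d (Or.inr (Set.mem_iUnion₂.2 ⟨χ, hχ, hd⟩)))
        (isClosed_eq (by fun_prop) continuous_const) (hDsub χ hx)
      rw [inner_smul_right, h0, mul_zero])
  exact hne (by rw [inner_smul_right, hvd p (Or.inl hp), mul_zero])

lemma exists_spread (hN : PropertyN A) (hπ : IsIrreducibleRep π) (hB : Branches A)
    (hS : ∀ a ∈ S, star a = a)
    (hd : Dense ((Submodule.span ℂ (⋃ χ : S → ℝ, EigenSpace π S χ) : Submodule ℂ H) : Set H))
    (hsm : ∀ χ : S → ℝ, IsSmallSet (EigenSpace π S χ)) {k : A} (hk : 0 ≤ k) (hk0 : k ≠ 0)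
    (N : ℕ) (hNpos : 0 < N) :
    ∃ (ψ W : H) (F : Finset (S → ℝ)), ψ ∈ region π k ∧ ‖ψ‖ = 1 ∧
      W ∈ Submodule.span ℂ (⋃ χ ∈ F, (eigSub π S χ : Set H)) ∧ ‖ψ - W‖ ≤ (√N)⁻¹ ∧
      ∀ χ ∈ F, ‖(eigSub π S χ).starProjection ψ‖ ≤ 2 * (√N)⁻¹ := by
  classical
  set δ : ℝ := (N : ℝ)⁻¹ with hδd
  have hNR : (0:ℝ) < N := by exact_mod_cast hNpos
  have hδ : 0 < δ := by positivity
  have hbuild : ∀ n : ℕ, ∃ (v w : ℕ → H) (B : ℕ → Finset (S → ℝ)), ∀ l < n,
      v l ∈ region π k ∧ ‖v l‖ = 1 ∧ w l ∈ Submodule.span ℂ (⋃ χ ∈ B l, (eigSub π S χ : Set H)) ∧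
      ‖v l - w l‖ ≤ δ ∧ (∀ j < l, ⟪v j, v l⟫_ℂ = 0) ∧
      ∀ j < l, ∀ χ ∈ B j, (eigSub π S χ).starProjection (v l) = 0 := by
    intro n
    induction n with
    | zero => exact ⟨fun _ => 0, fun _ => 0, fun _ => ∅, fun l hl => absurd hl (by omega)⟩
    | succ n ih =>
      obtain ⟨v, w, B, hvw⟩ := ih
      obtain ⟨x, hx, hx1, hxB, hxP⟩ := exists_avoid hN hπ hB hsm hk hk0
        ((Finset.range n).biUnion B) ((Finset.range n).image v)
      obtain ⟨Bx, y, hy, hxy⟩ := exists_finite_approx hd x hδ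
      refine ⟨Function.update v n x, Function.update w n y, Function.update B n Bx,
        fun l hl => ?_⟩
      rcases Nat.lt_succ_iff_lt_or_eq.1 hl with hl' | rfl
      · obtain ⟨h1, h2, h3, h4, h5, h6⟩ := hvw l hl'
        rw [Function.update_of_ne hl'.ne, Function.update_of_ne hl'.ne,
          Function.update_of_ne hl'.ne]
        exact ⟨h1, h2, h3, h4, fun j hj => by
          rw [Function.update_of_ne (by omega)]; exact h5 j hj, fun j hj => by
          rw [Function.update_of_ne (by omega)]; exact h6 j hj⟩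
      · simp only [Function.update_self]
        exact ⟨hx, hx1, hy, hxy, fun j hj => by
          rw [Function.update_of_ne (by omega)]
          exact hxP _ (Finset.mem_image_of_mem v (Finset.mem_range.2 hj)), fun j hj χ hχ => by
          rw [Function.update_of_ne (by omega)] at hχ
          rw [Submodule.starProjection_apply_eq_zero_iff, Submodule.mem_orthogonal]
          exact hxB χ (Finset.mem_biUnion.2 ⟨j, Finset.mem_range.2 hj, hχ⟩)⟩
  obtain ⟨v, w, B, hvw⟩ := hbuild N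
  set r : ℝ := (√N)⁻¹ with hr
  have hr0 : 0 < r := by positivity
  have hNr : (N : ℝ) * δ = 1 := mul_inv_cancel₀ hNR.ne'
  refine ⟨(r : ℂ) • ∑ l ∈ Finset.range N, v l, (r : ℂ) • ∑ l ∈ Finset.range N, w l,
    (Finset.range N).biUnion B, ?_, ?_, ?_, ?_, ?_⟩
  · exact Submodule.smul_mem _ _ (Submodule.sum_mem _ fun l hl => (hvw l (Finset.mem_range.1 hl)).1)
  · rw [norm_smul, Complex.norm_real, Real.norm_of_nonneg hr0.le]
    have hsq : ‖∑ l ∈ Finset.range N, v l‖ ^ 2 = N := by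
      have h1 : ⟪∑ l ∈ Finset.range N, v l, ∑ l ∈ Finset.range N, v l⟫_ℂ = (N : ℂ) := by
        simp only [sum_inner, inner_sum]
        rw [Finset.sum_congr rfl fun i hi => Finset.sum_eq_single_of_mem i hi fun j hj hji => ?_]
        · rw [Finset.sum_congr rfl fun i hi => by
            rw [inner_self_eq_norm_sq_to_K, (hvw i (Finset.mem_range.1 hi)).2.1,
              RCLike.ofReal_one, one_pow]]
          simp
        · rcases lt_or_gt_of_ne hji with h | h
          · exact (hvw i (Finset.mem_range.1 hi)).2.2.2.2.1 j h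
          · rw [← inner_conj_symm, (hvw j (Finset.mem_range.1 hj)).2.2.2.2.1 i h, map_zero]
      rw [inner_self_eq_norm_sq_to_K] at h1
      have h2 := congrArg Complex.re h1
      simpa [← Complex.ofReal_pow] using h2
    have : ‖∑ l ∈ Finset.range N, v l‖ = √N := by
      rw [← hsq, Real.sqrt_sq (norm_nonneg _)]
    rw [this, hr, inv_mul_cancel₀ (by positivity)]
  · refine Submodule.smul_mem _ _ (Submodule.sum_mem _ fun l hl => ?_)
    exact Submodule.span_mono (Set.biUnion_subset_biUnion_left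
      (Finset.subset_biUnion_of_mem B hl)) (hvw l (Finset.mem_range.1 hl)).2.2.1
  · rw [← smul_sub, ← Finset.sum_sub_distrib, norm_smul, Complex.norm_real,
      Real.norm_of_nonneg hr0.le]
    refine mul_le_of_le_one_right hr0.le ((norm_sum_le _ _).trans ?_)
    refine (Finset.sum_le_sum fun l hl => (hvw l (Finset.mem_range.1 hl)).2.2.2.1).trans ?_
    simp [hNr]
  · intro χ _
    rw [map_smul, map_sum, norm_smul, Complex.norm_real, Real.norm_of_nonneg hr0.le,
      mul_comm (2 : ℝ)]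
    refine mul_le_mul_of_nonneg_left ((norm_sum_le _ _).trans ?_) hr0.le
    have hP : ∀ l < N, χ ∉ B l → ‖(eigSub π S χ).starProjection (v l)‖ ≤ δ := fun l hl hnot => by
      have h0 := proj_zero_of_span hS hnot (hvw l hl).2.2.1
      have : (eigSub π S χ).starProjection (v l)
          = (eigSub π S χ).starProjection (v l - w l) := by rw [map_sub, h0, sub_zero]
      rw [this]
      exact (Submodule.norm_starProjection_apply_le _ _).trans (hvw l hl).2.2.2.1
    by_cases hex : ∃ l, l < N ∧ χ ∈ B l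
    · set j := Nat.find hex
      obtain ⟨hjN, hjB⟩ := Nat.find_spec hex
      refine (Finset.sum_le_sum (g := fun l => δ + if l = j then 1 else 0) fun l hl => ?_).trans ?_
      · rw [Finset.mem_range] at hl
        rcases lt_trichotomy l j with h | rfl | h
        · rw [if_neg h.ne, add_zero]
          exact hP l hl fun hB' => Nat.find_min hex h ⟨hl, hB'⟩
        · rw [if_pos rfl]
          refine ((Submodule.norm_starProjection_apply_le _ _).trans_eq
            (hvw _ hjN).2.1).trans ?_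
          linarith
        · rw [if_neg h.ne', add_zero, (hvw l hl).2.2.2.2.2 j h χ hjB, norm_zero]
          exact hδ.le
      · rw [Finset.sum_add_distrib, Finset.sum_ite_eq', if_pos (Finset.mem_range.2 hjN),
          Finset.sum_const, Finset.card_range, nsmul_eq_mul, hNr]
        norm_num
    · push Not at hex
      refine (Finset.sum_le_sum fun l hl => hP l (Finset.mem_range.1 hl)
        (hex l (Finset.mem_range.1 hl))).trans ?_
      simp [hNr]

lemma exists_level (hN : PropertyN A) (hπ : IsIrreducibleRep π) (hB : Branches A)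
    (hS : ∀ a ∈ S, star a = a)
    (hd : Dense ((Submodule.span ℂ (⋃ χ : S → ℝ, EigenSpace π S χ) : Submodule ℂ H) : Set H))
    (hsm : ∀ χ : S → ℝ, IsSmallSet (EigenSpace π S χ)) {k : A} (hk : 0 ≤ k) (hk0 : k ≠ 0)
    (N : ℕ) (hNpos : 0 < N) :
    ∃ b : A, 0 ≤ b ∧ b ≠ 0 ∧ RMem k b ∧ ∀ χ, ∀ ζ ∈ eigSub π S χ, ∀ u ∈ region π b,
      ‖⟪u, ζ⟫_ℂ‖ ≤ 10 * (√N)⁻¹ * (‖u‖ * ‖ζ‖) := by
  classical
  obtain ⟨ψ, W, F, hψR, hψ1, hW, hψW, hFψ⟩ := exists_spread hN hπ hB hS hd hsm hk hk0 N hNpos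
  obtain ⟨c, t, hc, hct, hsep⟩ := exists_separator (π := π) hS F
  obtain ⟨δ, hδ, hgap⟩ : ∃ δ : ℝ, 0 < δ ∧
      ∀ χ ∈ F, ∀ χ' ∈ F, χ ≠ χ' → δ + δ ≤ |t χ - t χ'| := by
    let G : Finset ℝ := insert 1 (F.offDiag.image fun p => |t p.1 - t p.2| / 2)
    refine ⟨G.min' (Finset.insert_nonempty _ _), ?_, fun χ hχ χ' hχ' hne => ?_⟩
    · rw [Finset.lt_min'_iff]
      intro y hy
      rcases Finset.mem_insert.1 hy with rfl | hy
      · exact one_pos
      obtain ⟨p, hp, rfl⟩ := Finset.mem_image.1 hy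
      rw [Finset.mem_offDiag] at hp
      exact half_pos (abs_pos.2 (sub_ne_zero.2 (hsep _ hp.1 _ hp.2.1 hp.2.2)))
    · have := Finset.min'_le G (|t χ - t χ'| / 2) (Finset.mem_insert_of_mem
        (Finset.mem_image.2 ⟨(χ, χ'), Finset.mem_offDiag.2 ⟨hχ, hχ', hne⟩, rfl⟩))
      linarith
  let bump : (S → ℝ) → ℝ → ℝ := fun χ s => max (1 - |s - t χ| / δ) 0
  have hb0 : ∀ χ s, 0 ≤ bump χ s := fun χ s => le_max_right _ _
  have hb1 : ∀ χ s, bump χ s ≤ 1 := fun χ s =>
    max_le (by linarith [div_nonneg (abs_nonneg (s - t χ)) hδ.le]) zero_le_one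
  have hdisj : ∀ χ ∈ F, ∀ χ' ∈ F, χ ≠ χ' → ∀ s, bump χ s ≠ 0 → bump χ' s = 0 := by
    intro χ hχ χ' hχ' hne s hs
    have h1 : |s - t χ| < δ := by
      by_contra hle
      push Not at hle
      exact hs (max_eq_right (by linarith [(one_le_div hδ).2 hle]))
    refine max_eq_right ?_
    have h2 := abs_sub_le (t χ) s (t χ')
    rw [abs_sub_comm (t χ) s] at h2
    linarith [(one_le_div hδ).2 (show δ ≤ |s - t χ'| by linarith [hgap χ hχ χ' hχ' hne])]
  let keep : Option F → Finset (S → ℝ) := fun o =>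
    F.filter fun χ => ∀ q : F, o = some q → (q : S → ℝ) ≠ χ
  let g : Option F → ℝ → ℝ := fun o s => 1 - ∑ χ ∈ keep o, bump χ s
  have hsum : ∀ (o : Option F) s, ∑ χ ∈ keep o, bump χ s ≤ 1 := by
    intro o s
    by_cases h : ∃ χ ∈ keep o, bump χ s ≠ 0
    · obtain ⟨χ, hχ, hne⟩ := h
      rw [Finset.sum_eq_single_of_mem χ hχ fun χ' hχ' hne' =>
        hdisj χ (Finset.mem_filter.1 hχ).1 χ' (Finset.mem_filter.1 hχ').1 (Ne.symm hne') s hne]
      exact hb1 χ s
    · push Not at h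
      rw [Finset.sum_eq_zero h]
      exact zero_le_one
  have hg01 : ∀ o s, 0 ≤ g o s ∧ g o s ≤ 1 := fun o s =>
    ⟨by simp only [g]; linarith [hsum o s],
      by simp only [g]; linarith [Finset.sum_nonneg fun χ (_ : χ ∈ keep o) => hb0 χ s]⟩
  have hgc : ∀ o, Continuous (g o) := fun o => by
    simp only [g, bump]
    fun_prop
  let p : Option F → ℂ × A := fun o => ((g o 0 : ℂ), cfcₙ (fun s => g o s - g o 0) c)
  have hlip : ∀ o s r, |(g o s - g o 0) - (g o r - g o 0)| ≤
      ((keep o).card : ℝ) / δ * |s - r| := by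
    intro o s r
    rw [sub_sub_sub_cancel_right]
    simp only [g]
    rw [sub_sub_sub_cancel_left, ← Finset.sum_sub_distrib]
    refine (Finset.abs_sum_le_sum_abs _ _).trans ?_
    rw [div_mul_eq_mul_div, mul_div_assoc]
    calc ∑ χ ∈ keep o, |bump χ r - bump χ s| ≤ ∑ _χ ∈ keep o, |s - r| / δ := by
          refine Finset.sum_le_sum fun χ _ => (abs_max_sub_max_le_abs _ _ _).trans ?_
          rw [sub_sub_sub_cancel_left, ← sub_div, abs_div, abs_of_pos hδ]
          refine div_le_div_of_nonneg_right ((abs_abs_sub_abs_le_abs_sub _ _).trans_eq ?_) hδ.le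
          rw [sub_sub_sub_cancel_right]
      _ = _ := by rw [Finset.sum_const, nsmul_eq_mul]
  have hop : ∀ o χ, ∀ x ∈ eigSub π S χ, unitOp π (p o) x = (g o (t χ) : ℂ) • x := by
    intro o χ x hx
    have h1 := apply_of_eigen (π := π) (g := fun s => g o s - g o 0)
      (L := ((keep o).card : ℝ) / δ) hc (by fun_prop) (sub_self _) (hlip o) (hct χ x hx)
    rw [unitOp_apply]
    simp only [p]
    rw [h1, ← add_smul]
    simp
  have hnorm : ∀ o v, ‖unitOp π (p o) v‖ ≤ 2 * ‖v‖ := by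
    intro o v
    rw [unitOp_apply, two_mul]
    refine (norm_add_le _ _).trans (add_le_add ?_ ?_)
    · rw [norm_smul, Complex.norm_real, Real.norm_of_nonneg (hg01 o 0).1]
      exact mul_le_of_le_one_left (norm_nonneg _) (hg01 o 0).2
    · refine ((π _).le_opNorm v).trans (mul_le_of_le_one_left (norm_nonneg _) ?_)
      refine (NonUnitalStarAlgHom.norm_apply_le π _).trans (norm_cfcₙ_le fun s _ => ?_)
      rw [Real.norm_eq_abs, abs_le]
      constructor <;> linarith [hg01 o s, hg01 o 0]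
  have hbt : ∀ χ, bump χ (t χ) = 1 := fun χ => by simp [bump]
  have hval : ∀ o, ∀ χ ∈ F, g o (t χ) = if χ ∈ keep o then 0 else 1 := by
    intro o χ hχ
    have hone : ∀ χ' ∈ keep o, χ' ≠ χ → bump χ' (t χ) = 0 := fun χ' hχ' hne' =>
      hdisj χ hχ χ' (Finset.mem_filter.1 hχ').1 (Ne.symm hne') _ (by rw [hbt]; exact one_ne_zero)
    simp only [g]
    split_ifs with h
    · rw [Finset.sum_eq_single_of_mem χ h hone, hbt, sub_self]
    · rw [Finset.sum_eq_zero fun χ' hχ' => hone χ' hχ' (fun e => h (e ▸ hχ')), sub_zero]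
  have hsmall : ∀ o, ‖unitOp π (p o) ψ‖ ≤ 5 * (√N)⁻¹ := by
    intro o
    have hsplit : ‖unitOp π (p o) ψ‖ ≤ ‖unitOp π (p o) W‖ + 2 * ‖ψ - W‖ := by
      have := norm_add_le (unitOp π (p o) W) (unitOp π (p o) (ψ - W))
      rw [← map_add, add_sub_cancel] at this
      linarith [hnorm o (ψ - W)]
    have hWo : ‖unitOp π (p o) W‖ ≤ 3 * (√N)⁻¹ := by
      rcases o with _ | q
      · have h0 : unitOp π (p none) W = 0 := by
          clear hψW hsplit
          induction hW using Submodule.span_induction with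
          | mem x hx =>
            simp only [Set.mem_iUnion, SetLike.mem_coe] at hx
            obtain ⟨χ, hχ, hx⟩ := hx
            rw [hop none χ x hx, hval none χ hχ, if_pos (by simp [keep, hχ])]
            simp
          | zero => simp
          | add a b _ _ iha ihb => rw [map_add, iha, ihb, add_zero]
          | smul z a _ iha => rw [map_smul, iha, smul_zero]
        rw [h0, norm_zero]
        positivity
      · have h0 : unitOp π (p (some q)) W = (eigSub π S q.1).starProjection W := by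
          clear hψW hsplit
          induction hW using Submodule.span_induction with
          | mem x hx =>
            simp only [Set.mem_iUnion, SetLike.mem_coe] at hx
            obtain ⟨χ, hχ, hx⟩ := hx
            rw [hop _ χ x hx, hval _ χ hχ]
            by_cases e : (q.1 : S → ℝ) = χ
            · rw [if_neg (by simp [keep, e]), Submodule.starProjection_eq_self_iff.2 (by rw [e]; exact hx)]
              simp
            · rw [if_pos (Finset.mem_filter.2 ⟨hχ, fun q' hq' => by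
                cases hq'; exact e⟩), (Submodule.starProjection_apply_eq_zero_iff _).2
                ((Submodule.mem_orthogonal _ _).2 fun y hy => eig_orth hS e hy hx)]
              simp
          | zero => simp
          | add a b _ _ iha ihb => rw [map_add, map_add, iha, ihb]
          | smul z a _ iha => rw [map_smul, map_smul, iha]
        rw [h0]
        have := norm_add_le ((eigSub π S q.1).starProjection ψ)
          ((eigSub π S q.1).starProjection (W - ψ))
        rw [← map_add, add_sub_cancel] at this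
        have h2 := Submodule.norm_starProjection_apply_le (eigSub π S q.1) (W - ψ)
        rw [norm_sub_rev] at h2
        linarith [hFψ q.1 q.2]
    linarith
  obtain ⟨b, hb, hb0', hkb, hub⟩ := exists_excised hπ p hk hψ1 hψR
    (ε := 5 * (√N)⁻¹) (by positivity) hsmall
  refine ⟨b, hb, hb0', hkb, fun χ ζ hζ u hu => ?_⟩
  obtain ⟨o, ho⟩ : ∃ o, g o (t χ) = 1 := by
    by_cases h : ∃ q ∈ F, bump q (t χ) ≠ 0
    · obtain ⟨q, hq, hqne⟩ := h
      refine ⟨some ⟨q, hq⟩, ?_⟩
      simp only [g]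
      rw [Finset.sum_eq_zero fun χ' hχ' => ?_, sub_zero]
      obtain ⟨h1, h2⟩ := Finset.mem_filter.1 hχ'
      exact hdisj q hq χ' h1 (h2 ⟨q, hq⟩ rfl) _ hqne
    · push Not at h
      refine ⟨none, ?_⟩
      simp only [g]
      rw [Finset.sum_eq_zero fun χ' hχ' => h χ' (Finset.mem_filter.1 hχ').1, sub_zero]
  have hOζ : unitOp π (p o) ζ = ζ := by rw [hop o χ ζ hζ, ho]; simp
  have hsym : ⟪u, unitOp π (p o) ζ⟫_ℂ = ⟪unitOp π (p o) u, ζ⟫_ℂ := by
    rw [unitOp_apply, unitOp_apply, inner_add_right, inner_add_left, inner_smul_right,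
      inner_smul_left, ← rep_adj, (IsSelfAdjoint.cfcₙ).star_eq, Complex.conj_ofReal]
  rw [← hOζ, hsym, hOζ]
  refine (norm_inner_le_norm _ _).trans ?_
  calc ‖unitOp π (p o) u‖ * ‖ζ‖ ≤ 2 * (5 * (√N)⁻¹) * ‖u‖ * ‖ζ‖ :=
        mul_le_mul_of_nonneg_right (hub o u hu) (norm_nonneg _)
    _ = _ := by ring

theorem diagonal_absurd (hN : PropertyN A) (hπ : IsIrreducibleRep π) (hB : Branches A)
    (hS : ∀ a ∈ S, star a = a)
    (hd : Dense ((Submodule.span ℂ (⋃ χ : S → ℝ, EigenSpace π S χ) : Submodule ℂ H) : Set H))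
    (hsm : ∀ χ : S → ℝ, IsSmallSet (EigenSpace π S χ)) : False := by
  classical
  obtain ⟨a, ha⟩ := @exists_ne A hN.1 0
  have hk₀ : (0 : A) ≤ star a * a := star_mul_self_nonneg a
  have hk₀0 : star a * a ≠ 0 := fun h => ha ((CStarRing.star_mul_self_eq_zero_iff a).1 h)
  choose bf hbf hbf0 hkb hbound using fun (p : {x : A // 0 ≤ x ∧ x ≠ 0}) (m : ℕ) =>
    exists_level hN hπ hB hS hd hsm p.2.1 p.2.2 (m + 1) (Nat.succ_pos m)
  choose sC kC hs hk hkne hfix hms hmk hsne using
    fun p : {a : A // 0 ≤ a ∧ a ≠ 0} => exists_child p.2.1 p.2.2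
  let node : ℕ → {x : A // 0 ≤ x ∧ x ≠ 0} := fun m =>
    Nat.rec ⟨star a * a, hk₀, hk₀0⟩
      (fun i q => ⟨kC ⟨bf q i, hbf q i, hbf0 q i⟩, hk _, hkne _⟩) m
  let b : ℕ → {x : A // 0 ≤ x ∧ x ≠ 0} := fun m =>
    ⟨bf (node m) m, hbf _ _, hbf0 _ _⟩
  obtain ⟨η, hη0, hη⟩ := exists_chain_vector hN hπ (fun m => sC (b m)) (fun m => hs _)
    (chain_of_step (k := fun m => (node (m + 1)).1) (fun m => hfix _)
      (fun m => (hkb (node (m + 1)) (m + 1)).trans (hms (b (m + 1))))
      (fun m => (hkb (node (m + 1)) (m + 1)).trans (hmk (b (m + 1)))))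
    (fun m => hsne _)
  obtain ⟨χ, ζ, hζ, hne⟩ : ∃ χ, ∃ ζ ∈ eigSub π S χ, ⟪η, ζ⟫_ℂ ≠ 0 := by
    by_contra h
    push Not at h
    refine hη0 (inner_self_eq_zero (𝕜 := ℂ).1 ?_)
    refine closure_minimal (t := {z : H | ⟪η, z⟫_ℂ = 0}) (fun z hz => ?_)
      (isClosed_eq (by fun_prop) continuous_const) (hd η)
    induction hz using Submodule.span_induction with
    | mem x hx =>
      obtain ⟨χ, hx⟩ := Set.mem_iUnion.1 hx
      exact h χ x hx
    | zero => simp
    | add a b _ _ iha ihb =>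
      show ⟪η, a + b⟫_ℂ = 0
      rw [inner_add_right, show ⟪η, a⟫_ℂ = 0 from iha, show ⟪η, b⟫_ℂ = 0 from ihb, add_zero]
    | smul z a _ iha =>
      show ⟪η, z • a⟫_ℂ = 0
      rw [inner_smul_right, show ⟪η, a⟫_ℂ = 0 from iha, mul_zero]
  set x := ‖⟪η, ζ⟫_ℂ‖ with hx
  set C := 10 * (‖η‖ * ‖ζ‖) with hC
  have hxpos : 0 < x := norm_pos_iff.2 hne
  have hle : ∀ m : ℕ, x * √((m + 1 : ℕ) : ℝ) ≤ C := by
    intro m
    have hmem : η ∈ region π (b m).1 := by
      rw [← hη m]
      exact region_mono (hms (b m)) (apply_mem_region _ _)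
    have h1 := hbound (node m) m χ ζ hζ η hmem
    have hs' : 0 < √((m + 1 : ℕ) : ℝ) := Real.sqrt_pos.2 (by exact_mod_cast Nat.succ_pos m)
    calc x * √((m + 1 : ℕ) : ℝ)
        ≤ 10 * (√((m + 1 : ℕ) : ℝ))⁻¹ * (‖η‖ * ‖ζ‖) * √((m + 1 : ℕ) : ℝ) :=
          mul_le_mul_of_nonneg_right h1 hs'.le
      _ = C := by rw [hC]; field_simp
  obtain ⟨m, hm⟩ := exists_nat_gt ((C / x) ^ 2)
  have h1 : √((m + 1 : ℕ) : ℝ) ≤ C / x := by
    rw [le_div_iff₀ hxpos, mul_comm]
    exact hle m
  have h2 := pow_le_pow_left₀ (Real.sqrt_nonneg _) h1 2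
  rw [Real.sq_sqrt (by positivity)] at h2
  push_cast at h2
  linarith

end Vale.Agent.P070
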