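import Vale.Agent.P070.Branch

/-!
Joint eigenspaces, separating elements and small sets.
-/

universe u

set_option linter.unusedSectionVars false

namespace Vale.Agent.P070

open InnerProductSpace ComplexOrder Cardinal
open Vale.Agent.P133

variable {A : Type u} [NonUnitalCStarAlgebra A] [PartialOrder A] [StarOrderedRing A]
variable {H : Type u} [NormedAddCommGroup H] [InnerProductSpace ℂ H] [CompleteSpace H]
variable {π : A →⋆ₙₐ[ℂ] (H →L[ℂ] H)} {S : Set A}

/-- The joint eigenspace as a subspace. -/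
def eigSub (π : A →⋆ₙₐ[ℂ] (H →L[ℂ] H)) (S : Set A) (χ : S → ℝ) : Submodule ℂ H where
  carrier := EigenSpace π S χ
  add_mem' := fun {x y} hx hy a => by
    show π a (x + y) = _
    rw [map_add, smul_add]
    exact congrArg₂ (· + ·) (hx a) (hy a)
  zero_mem' := fun a => by
    show π a 0 = _
    simp
  smul_mem' := fun z x hx a => by
    show π a (z • x) = _
    rw [map_smul, smul_comm]
    exact congrArg _ (hx a)

lemma eig_apply {χ : S → ℝ} {x : H} (hx : x ∈ eigSub π S χ) (a : S) :
    π (a : A) x = (χ a : ℂ) • x := hx a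

lemma isClosed_eigSub (χ : S → ℝ) : IsClosed (eigSub π S χ : Set H) := by
  have : (eigSub π S χ : Set H) = ⋂ a : S, {x | π (a : A) x = (χ a : ℂ) • x} := by
    ext x
    simp only [Set.mem_iInter, Set.mem_ofPred_eq]
    rfl
  rw [this]
  exact isClosed_iInter fun a => isClosed_eq (π (a : A)).continuous (by fun_prop)

lemma eig_orth (hS : ∀ a ∈ S, star a = a) {χ χ' : S → ℝ} (hne : χ ≠ χ') {x y : H}
    (hx : x ∈ eigSub π S χ) (hy : y ∈ eigSub π S χ') : ⟪x, y⟫_ℂ = 0 := by
  obtain ⟨a, ha⟩ := Function.ne_iff.1 hne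
  have h := rep_adj π (a : A) x y
  rw [hS a a.2, eig_apply hx, eig_apply hy, inner_smul_left, inner_smul_right,
    Complex.conj_ofReal] at h
  by_contra h0
  exact ha (by exact_mod_cast mul_right_cancel₀ h0 h)

lemma apply_of_eigen {c : A} (hc : IsSelfAdjoint c) {g : ℝ → ℝ} (hg : Continuous g) (hg0 : g 0 = 0)
    {L : ℝ} (hL : ∀ s r, |g s - g r| ≤ L * |s - r|) {x : H} {t : ℝ}
    (hx : π c x = (t : ℂ) • x) : π (cfcₙ g c) x = (g t : ℂ) • x := by
  have hL0 : 0 ≤ L := by
    have := hL 1 0
    simp at this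
    linarith [abs_nonneg (g 1 - g 0)]
  have hid : cfcₙ (fun s : ℝ => s) c = c := cfcₙ_id' ℝ c hc
  have key : ∀ u v : ℝ → ℝ, Continuous u → Continuous v → u 0 = 0 → v 0 = 0 →
      (∀ s, |u s| ≤ L * |v s|) → π (cfcₙ v c) x = 0 → π (cfcₙ u c) x = 0 := by
    intro u v hu hv hu0 hv0 huv hvx
    have hus : star (cfcₙ u c) = cfcₙ u c := (IsSelfAdjoint.cfcₙ).star_eq
    have hvs : star (cfcₙ v c) = cfcₙ v c := (IsSelfAdjoint.cfcₙ).star_eq
    have hle : cfcₙ (fun s => u s * u s) c ≤ cfcₙ (fun s => L ^ 2 * (v s * v s)) c := by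
      refine cfcₙ_mono (fun s _ => ?_) (hu.mul hu).continuousOn
        (continuous_const.mul (hv.mul hv)).continuousOn (by simp [hu0]) (by simp [hv0])
      rw [← abs_mul_abs_self (u s), ← abs_mul_abs_self (v s)]
      nlinarith [huv s, abs_nonneg (u s), abs_nonneg (v s),
        mul_le_mul (huv s) (huv s) (abs_nonneg _) (by positivity)]
    have h0 := (vec_mem_qstates π (ξ := ((‖x‖ + 1)⁻¹ : ℝ) • x) (by
      rw [norm_smul, Real.norm_of_nonneg (by positivity), inv_mul_le_iff₀ (by positivity)]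
      linarith)).2.2.1 _ (sub_nonneg.2 hle)
    have h1 := (Complex.le_def.1 h0).1
    have e1 : cfcₙ (fun s => L ^ 2 * (v s * v s)) c = ((L ^ 2 : ℝ) : ℂ) • (cfcₙ v c * cfcₙ v c) := by
      rw [← cfcₙ_mul _ _ c hv.continuousOn hv0 hv.continuousOn hv0, Complex.coe_smul,
        ← cfcₙ_smul (L ^ 2) (fun s => v s * v s) c (hv.mul hv).continuousOn (by simp [hv0])]
      rfl
    rw [e1, cfcₙ_mul _ _ c hu.continuousOn hu0 hu.continuousOn hu0] at h1
    simp only [← Complex.coe_smul, map_smul, map_sub, sub_apply, smul_apply, rep_mul, hvx,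
      map_zero, smul_zero, zero_sub, inner_neg_right, inner_smul_left, inner_smul_right,
      Complex.conj_ofReal, Complex.neg_re, Complex.re_ofReal_mul, Complex.zero_re] at h1
    rw [show ⟪x, π (cfcₙ u c) (π (cfcₙ u c) x)⟫_ℂ = ((‖π (cfcₙ u c) x‖ ^ 2 : ℝ) : ℂ) by
      rw [← rep_mul]; nth_rw 1 [← hus]; rw [rep_sq], Complex.ofReal_re] at h1
    have hr : 0 < (‖x‖ + 1)⁻¹ * (‖x‖ + 1)⁻¹ := by positivity
    refine norm_eq_zero.1 ((pow_eq_zero_iff two_ne_zero).1 (le_antisymm ?_ (sq_nonneg _)))
    nlinarith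
  rcases eq_or_ne t 0 with rfl | ht
  · rw [hg0]
    have h1 := key g (fun s => s) hg continuous_id' hg0 rfl
      (fun s => by simpa [hg0] using hL s 0) (by rw [hid, hx]; simp)
    simp [h1]
  · have hv : π (cfcₙ (fun s => (s - t) * s) c) x = 0 := by
      rw [show (fun s : ℝ => (s - t) * s) = fun s => s * s - t • s from by
          funext s; simp only [smul_eq_mul]; ring,
        cfcₙ_sub _ _ c (by fun_prop) (by simp) (by fun_prop) (by simp),
        cfcₙ_mul _ _ c (by fun_prop) (by simp) (by fun_prop) (by simp),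
        cfcₙ_smul _ _ c (by fun_prop) (by simp), hid, ← Complex.coe_smul, map_sub, map_smul,
        sub_apply, smul_apply, rep_mul, hx, map_smul, hx, sub_self]
    have hu := key (fun s => (g s - g t) * s) (fun s => (s - t) * s) (by fun_prop) (by fun_prop)
      (by simp) (by simp) (fun s => by
        rw [abs_mul, abs_mul, ← mul_assoc]
        exact mul_le_mul_of_nonneg_right (hL s t) (abs_nonneg _)) hv
    rw [show (fun s : ℝ => (g s - g t) * s) = fun s => g s * s - g t • s from by
        funext s; simp only [smul_eq_mul]; ring,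
      cfcₙ_sub _ _ c (by fun_prop) (by simp) (by fun_prop) (by simp),
      cfcₙ_mul _ _ c (by fun_prop) hg0 (by fun_prop) (by simp),
      cfcₙ_smul _ _ c (by fun_prop) (by simp), hid, ← Complex.coe_smul, map_sub, map_smul,
      sub_apply, smul_apply, rep_mul, hx, map_smul, sub_eq_zero, smul_smul, mul_comm (g t : ℂ),
      ← smul_smul] at hu
    exact smul_right_injective H (by exact_mod_cast ht : (t : ℂ) ≠ 0) hu

/-- A self-adjoint element separating finitely many eigenspaces. -/
lemma exists_separator (hS : ∀ a ∈ S, star a = a) (F : Finset (S → ℝ)) :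
    ∃ (c : A) (t : (S → ℝ) → ℝ), IsSelfAdjoint c ∧
      (∀ χ, ∀ x ∈ eigSub π S χ, π c x = (t χ : ℂ) • x) ∧
      ∀ χ ∈ F, ∀ χ' ∈ F, χ ≠ χ' → t χ ≠ t χ' := by
  classical
  suffices h : ∀ P : Finset ((S → ℝ) × (S → ℝ)), ∃ (c : A) (t : (S → ℝ) → ℝ), IsSelfAdjoint c ∧
      (∀ χ, ∀ x ∈ eigSub π S χ, π c x = (t χ : ℂ) • x) ∧
      ∀ p ∈ P, p.1 ≠ p.2 → t p.1 ≠ t p.2 by
    obtain ⟨c, t, hc, hct, hsep⟩ := h (F ×ˢ F)
    exact ⟨c, t, hc, hct, fun χ hχ χ' hχ' hne => hsep (χ, χ') (Finset.mk_mem_product hχ hχ') hne⟩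
  intro P
  induction P using Finset.induction with
  | empty => exact ⟨0, fun _ => 0, IsSelfAdjoint.zero _, fun χ x _ => by simp, by simp⟩
  | insert p P hp ih =>
    obtain ⟨c, t, hc, hct, hsep⟩ := ih
    by_cases hpne : p.1 = p.2
    · refine ⟨c, t, hc, hct, fun q hq hne => ?_⟩
      rcases Finset.mem_insert.1 hq with rfl | hq
      · exact absurd hpne hne
      · exact hsep q hq hne
    obtain ⟨a, ha⟩ := Function.ne_iff.1 hpne
    let bad : Finset ℝ := (insert p P).image fun q => -(t q.1 - t q.2) / (q.1 a - q.2 a)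
    obtain ⟨r, hr⟩ := Infinite.exists_notMem_finset (insert 0 bad)
    rw [Finset.mem_insert, not_or] at hr
    refine ⟨c + (r : ℂ) • (a : A), fun χ => t χ + r * χ a, hc.add ?_, fun χ x hx => ?_, ?_⟩
    · show star ((r : ℂ) • (a : A)) = (r : ℂ) • (a : A)
      rw [star_smul, hS a a.2, Complex.star_def, Complex.conj_ofReal]
    · rw [map_add, map_smul, add_apply, smul_apply, hct χ x hx, eig_apply hx, smul_smul,
        ← add_smul]
      push_cast
      rfl
    intro q hq hne heq
    by_cases hqa : q.1 a = q.2 a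
    · rcases Finset.mem_insert.1 hq with rfl | hq'
      · exact ha hqa
      · exact hsep q hq' hne (by simp only [hqa] at heq; linarith)
    · refine hr.2 (Finset.mem_image.2 ⟨q, hq, ?_⟩)
      field_simp [sub_ne_zero.2 hqa]
      linarith

/-- A closed subspace is small if a small set detects all of its nonzero vectors. -/
lemma small_of_detect {R : Submodule ℂ H} (hR : IsClosed (R : Set H)) {D : Set H}
    (hD : Cardinal.mk D < Cardinal.continuum.{u})
    (h : ∀ v ∈ R, (∀ d ∈ D, ⟪d, v⟫_ℂ = 0) → v = 0) : IsSmallSet (R : Set H) := by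
  classical
  have : CompleteSpace R := hR.completeSpace_coe
  let sumList : List ((ℚ × ℚ) × D) → H := fun l =>
    (l.map fun q => ((q.1.1 : ℂ) + (q.1.2 : ℂ) * Complex.I) • R.starProjection q.2).sum
  refine ⟨Set.range sumList, ?_, ?_⟩
  · refine (Cardinal.mk_range_le).trans_lt ((Cardinal.mk_list_le_max _).trans_lt ?_)
    refine max_lt Cardinal.aleph0_lt_continuum ?_
    rw [Cardinal.mk_prod]
    simp only [Cardinal.lift_id, Cardinal.mk_prod, Cardinal.mkRat, Cardinal.lift_aleph0,
      Cardinal.aleph0_mul_aleph0]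
    exact Cardinal.mul_lt_of_lt Cardinal.aleph0_le_continuum Cardinal.aleph0_lt_continuum
      (by simpa using hD)
  have hadd : ∀ x ∈ closure (Set.range sumList), ∀ y ∈ closure (Set.range sumList),
      x + y ∈ closure (Set.range sumList) := fun x hx y hy =>
    map_mem_closure₂ continuous_add hx hy (by
      rintro _ ⟨l, rfl⟩ _ ⟨l', rfl⟩
      exact ⟨l ++ l', by simp [sumList]⟩)
  have hdense : DenseRange fun q : ℚ × ℚ => (q.1 : ℂ) + (q.2 : ℂ) * Complex.I := by
    have h1 : DenseRange fun q : ℚ × ℚ => Complex.equivRealProdCLM.symm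
        (Prod.map ((↑) : ℚ → ℝ) ((↑) : ℚ → ℝ) q) :=
      Complex.equivRealProdCLM.symm.surjective.denseRange.comp
        (Rat.denseRange_cast.prodMap Rat.denseRange_cast)
        Complex.equivRealProdCLM.symm.continuous
    convert h1 using 1
    funext q
    simp [Complex.equivRealProdCLM_symm_apply]
  have hsmul : ∀ z : ℂ, ∀ x ∈ closure (Set.range sumList),
      z • x ∈ closure (Set.range sumList) := fun z x hx =>
    map_mem_closure₂ continuous_smul (hdense z) hx (by
      rintro _ ⟨r, rfl⟩ _ ⟨l, rfl⟩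
      refine ⟨l.map fun q => ((r.1 * q.1.1 - r.2 * q.1.2, r.1 * q.1.2 + r.2 * q.1.1), q.2), ?_⟩
      simp only [sumList, List.map_map, List.smul_sum]
      refine congrArg List.sum (List.map_congr_left fun q _ => ?_)
      simp only [Function.comp, smul_smul]
      congr 1
      push_cast
      linear_combination (-(r.2 : ℂ) * (q.1.2 : ℂ)) * Complex.I_mul_I)
  let M : Submodule ℂ H :=
    { carrier := closure (Set.range sumList)
      add_mem' := fun {x y} hx hy => hadd x hx y hy
      zero_mem' := subset_closure ⟨[], rfl⟩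
      smul_mem' := hsmul }
  have hMc : IsClosed (M : Set H) := isClosed_closure
  have : CompleteSpace M := hMc.completeSpace_coe
  intro v hv
  show v ∈ M
  have hMR : M ≤ R := by
    refine closure_minimal ?_ hR
    rintro _ ⟨l, rfl⟩
    refine list_sum_mem fun x hx => ?_
    obtain ⟨q, -, rfl⟩ := List.mem_map.1 hx
    exact R.smul_mem _ (R.starProjection_apply_mem _)
  rw [← Submodule.starProjection_eq_self_iff, ← sub_eq_zero, ← neg_eq_zero, neg_sub]
  refine h _ (sub_mem hv (hMR (M.starProjection_apply_mem v))) fun d hd => ?_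
  have hPd : R.starProjection d ∈ M := subset_closure ⟨[((1, 0), ⟨d, hd⟩)], by simp [sumList]⟩
  have h1 : ⟪R.starProjection d, v - M.starProjection v⟫_ℂ = 0 :=
    Submodule.inner_right_of_mem_orthogonal hPd (M.sub_starProjection_mem_orthogonal v)
  rwa [Submodule.inner_starProjection_left_eq_right,
    Submodule.starProjection_eq_self_iff.2 (sub_mem hv (hMR (M.starProjection_apply_mem v)))] at h1

end Vale.Agent.P070
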