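import Vale.Agent.P070.Tree
import Vale.Agent.P070.Isolated
import Vale.Agent.P070.Diagonal

/-!
Property (N) with a regular masa, or with small diagonalisation, gives the compact operators.
-/

universe u

namespace Vale.Agent.P070

open Vale.Agent.P133

theorem isElementary_of_regularMasa {A : Type u} [NonUnitalCStarAlgebra A] (hN : PropertyN A)
    (C : NonUnitalStarSubalgebra ℂ A) (hC : IsRegularMasa C) : IsElementary A := by
  let _ : PartialOrder A := CStarAlgebra.spectralOrder A
  have : StarOrderedRing A := CStarAlgebra.spectralOrderedRing A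
  obtain ⟨H, i1, i2, i3, π, hπ⟩ := exists_irrep_of_N hN
  by_cases hS : Splits C
  · exact (splits_absurd hN hC hπ hS).elim
  unfold Splits at hS
  push Not at hS
  obtain ⟨a, haC, ha, ha0, h⟩ := hS
  have hA : ∀ p ∈ C, ∀ q ∈ C, 0 ≤ p → 0 ≤ q → RMem a p → RMem a q → p * q = 0 →
      p = 0 ∨ q = 0 := fun p hp q hq hp0 hq0 hmp hmq hpq => by
    by_contra hne
    rw [not_or] at hne
    exact h p q hp hq hp0 hq0 hne.1 hne.2 hpq hmp hmq
  obtain ⟨e, heC, hes, hee, he0, hmin⟩ := exists_minimal hC haC ha ha0 hA
  exact elementary_of_minimal hN hπ hes hee he0 hmin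

theorem isElementary_of_diagonalSmall {A : Type u} [NonUnitalCStarAlgebra A] (hN : PropertyN A)
    (hD : HasDiagonalSmall A) : IsElementary A := by
  let _ : PartialOrder A := CStarAlgebra.spectralOrder A
  have : StarOrderedRing A := CStarAlgebra.spectralOrderedRing A
  obtain ⟨H, i1, i2, i3, π, hπ, S, hS, hd, hsm⟩ := hD
  by_cases hB : Branches A
  · exact (diagonal_absurd hN hπ hB hS hd hsm).elim
  unfold Branches at hB
  push Not at hB
  obtain ⟨a, ha, ha0, h⟩ := hB
  obtain ⟨e, hes, hee, he0, hmin⟩ := exists_atom ha ha0 fun p q hp hq hmp hmq hpq => by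
    by_contra hne
    rw [not_or] at hne
    exact h p q hp hq hne.1 hne.2 hpq hmp hmq
  exact elementary_of_minimal hN hπ hes hee he0 hmin

end Vale.Agent.P070
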