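import Vale.Agent.P070.Rep
import Vale.Agent.P070.Char

/-!
Regular masas: normalisers and eigenvectors.
-/

universe u

set_option linter.unusedSectionVars false

namespace Vale.Agent.P070

open InnerProductSpace ComplexOrder
open Vale.Agent.P133

variable {A : Type u} [NonUnitalCStarAlgebra A] [PartialOrder A] [StarOrderedRing A]
variable {C : NonUnitalStarSubalgebra ℂ A}

lemma IsRegularMasa.isClosed (hC : IsRegularMasa C) : IsClosed (C : Set A) := by
  have h : (C : Set A) = ⋂ c ∈ C, {a : A | a * c = c * a} := by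
    ext a
    simp only [SetLike.mem_coe, Set.mem_iInter, Set.mem_ofPred_eq]
    exact ⟨fun ha c hc => hC.1 a ha c hc, hC.2.1 a⟩
  rw [h]
  exact isClosed_biInter fun c _ => isClosed_eq (by fun_prop) (by fun_prop)

lemma IsRegularMasa.cfcₙ_mem (hC : IsRegularMasa C) {c : A} (hc : c ∈ C) (f : ℝ → ℝ) :
    cfcₙ f c ∈ C :=
  hC.2.1 _ fun d hd => (Commute.cfcₙ_real (hC.1 c hc d hd) f).eq

lemma IsRegularMasa.sqrt_mem (hC : IsRegularMasa C) {c : A} (hc : c ∈ C) (hc0 : 0 ≤ c) :
    CFC.sqrt c ∈ C := by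
  rw [CFC.sqrt_eq_real_sqrt c hc0]
  exact hC.cfcₙ_mem hc _

lemma Normalizes.mul {m n : A} (hm : Normalizes C m) (hn : Normalizes C n) :
    Normalizes C (m * n) := fun c hc => by
  constructor
  · rw [show star (m * n) * c * (m * n) = star n * (star m * c * m) * n by simp [mul_assoc]]
    exact (hn _ (hm c hc).1).1
  · rw [show m * n * c * star (m * n) = m * (n * c * star n) * star m by simp [mul_assoc]]
    exact (hm _ (hn c hc).2).2

lemma normalizes_of_mem {b : A} (hb : b ∈ C) : Normalizes C b := fun _ hc =>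
  ⟨mul_mem (mul_mem (star_mem hb) hc) hb, mul_mem (mul_mem hb hc) (star_mem hb)⟩

lemma Normalizes.star_mem {n : A} (hn : Normalizes C n) : Normalizes C (star n) := fun c hc => by
  rw [star_star]
  exact ⟨(hn c hc).2, (hn c hc).1⟩

/-- For `T = x * x ≥ 0` with `T C T ⊆ C`, the element `T * T` times `C` lies in `C`. -/
lemma sq_mul_mem (hC : IsRegularMasa C) {T : A} (hT : IsSelfAdjoint T)
    (h : ∀ c ∈ C, T * c * T ∈ C) {c : A} (hc : c ∈ C) : T * T * c ∈ C := by
  set d := T * c * star c * T with hd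
  have hdC : d ∈ C := by
    rw [hd, mul_assoc T c]
    exact h _ (mul_mem hc (StarMemClass.star_mem hc))
  have hS : star (star c * T) * (star c * T) ≤ d := le_of_eq (by
    rw [hd, star_mul, star_star, hT.star_eq]; simp [mul_assoc])
  refine hC.isClosed.closure_subset (Metric.mem_closure_iff.2 fun ε hε => ?_)
  obtain ⟨η, hη, hle⟩ : ∃ η : ℝ, 0 < η ∧ ‖T‖ * √η < ε := by
    refine ⟨(ε / (‖T‖ + 1)) ^ 2, by positivity, ?_⟩
    rw [Real.sqrt_sq (by positivity), ← mul_div_assoc, div_lt_iff₀ (by positivity)]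
    nlinarith [norm_nonneg T]
  set u := cfcₙ (unitFun η) d with hu
  have huC : u ∈ C := hC.cfcₙ_mem hdC _
  have hus : star u = u := (IsSelfAdjoint.cfcₙ).star_eq
  refine ⟨T * u * T * c, mul_mem (h _ huC) hc, ?_⟩
  have h1 : ‖T * c - u * (T * c)‖ ≤ √η := by
    rw [← norm_star, star_sub, star_mul, star_mul, star_mul, hus, hT.star_eq]
    simpa [mul_assoc] using norm_sub_mul_unit_le hη hS
  rw [dist_eq_norm, show T * T * c - T * u * T * c = T * (T * c - u * (T * c)) by
    simp [mul_assoc, mul_sub]]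
  exact ((norm_mul_le _ _).trans (mul_le_mul_of_nonneg_left h1 (norm_nonneg _))).trans_lt hle

lemma IsRegularMasa.star_mul_self_mem (hC : IsRegularMasa C) {n : A} (hn : Normalizes C n) :
    star n * n ∈ C := by
  set T := star n * n with hT
  have hTsa : IsSelfAdjoint T := IsSelfAdjoint.star_mul_self n
  have h : ∀ c ∈ C, T * c * T ∈ C := fun c hc => by
    rw [show T * c * T = star n * (n * c * star n) * n by simp [T, mul_assoc]]
    exact (hn _ (hn c hc).2).1
  obtain ⟨x, hx⟩ : ∃ x, x = T * T := ⟨_, rfl⟩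
  have hxsa : IsSelfAdjoint x := by
    show star x = x
    rw [hx, star_mul, hTsa.star_eq]
  have h2 : ∀ c ∈ C, x * c * x ∈ C := fun c hc => by
    rw [show x * c * x = T * (T * c * T) * T by simp [hx, mul_assoc]]
    exact h _ (h c hc)
  have hl : ∀ c ∈ C, x * c ∈ C := fun c hc => hx ▸ sq_mul_mem hC hTsa h hc
  have hr : ∀ c ∈ C, c * x ∈ C := fun c hc => by
    have := StarMemClass.star_mem (hl (star c) (StarMemClass.star_mem hc))
    rwa [star_mul, star_star, hxsa.star_eq] at this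
  have hcomm : ∀ c ∈ C, star c = c → x * c = c * x := by
    intro c hc hcs
    obtain ⟨e, he⟩ : ∃ e, e = x * c - c * x := ⟨_, rfl⟩
    have heC : e ∈ C := he ▸ sub_mem (hl c hc) (hr c hc)
    have hexC : e * x ∈ C := by
      rw [he, sub_mul, mul_assoc c]
      refine sub_mem (h2 c hc) ?_
      have := StarMemClass.star_mem (sq_mul_mem hC hxsa h2 (StarMemClass.star_mem hc))
      rwa [star_mul, star_star, star_mul, hxsa.star_eq] at this
    have he2 : e * e = 0 := by
      nth_rw 2 [he]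
      rw [mul_sub, ← mul_assoc, ← mul_assoc, hC.1 _ hexC _ hc, hC.1 _ heC _ hc, mul_assoc,
        sub_self]
    have hes : star e = -e := by
      rw [he, star_sub, star_mul, star_mul, hxsa.star_eq, hcs]; abel
    exact sub_eq_zero.1 (he ▸ (CStarRing.star_mul_self_eq_zero_iff e).1 (by
      rw [hes, neg_mul, he2, neg_zero]))
  have hcomm' : ∀ c ∈ C, x * c = c * x := by
    intro c hc
    have h1 := hcomm (c + star c) (add_mem hc (StarMemClass.star_mem hc))
      (by rw [star_add, star_star, add_comm])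
    have h3 := hcomm (Complex.I • (c - star c))
      (SMulMemClass.smul_mem _ (sub_mem hc (StarMemClass.star_mem hc)))
      (by rw [star_smul, star_sub, star_star, Complex.star_def, Complex.conj_I, neg_smul,
        ← smul_neg, neg_sub])
    rw [mul_smul_comm, smul_mul_assoc] at h3
    have h4 := smul_right_injective A Complex.I_ne_zero h3
    rw [mul_sub, sub_mul] at h4
    rw [mul_add, add_mul] at h1
    have h5 : (2 : ℂ) • (x * c) = (2 : ℂ) • (c * x) := by
      rw [two_smul, two_smul]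
      calc x * c + x * c = (x * c + x * star c) + (x * c - x * star c) := by abel
        _ = (c * x + star c * x) + (c * x - star c * x) := by rw [h1, h4]
        _ = _ := by abel
    exact smul_right_injective A two_ne_zero h5
  refine hC.2.1 T fun c hc => ?_
  have hT0 : 0 ≤ T := star_mul_self_nonneg n
  have hs : CFC.sqrt x = T := hx ▸ CFC.sqrt_mul_self T hT0
  have hx0 : 0 ≤ x := by
    have := star_mul_self_nonneg T
    rw [hTsa.star_eq] at this
    exact hx ▸ this
  rw [← hs, CFC.sqrt_eq_real_sqrt x hx0]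
  exact (Commute.cfcₙ_real (hcomm' c hc) _).eq

variable {H : Type u} [NormedAddCommGroup H] [InnerProductSpace ℂ H] [CompleteSpace H]
variable {π : A →⋆ₙₐ[ℂ] (H →L[ℂ] H)}

/-- A joint eigenvector of `C`. -/
def Eig (C : NonUnitalStarSubalgebra ℂ A) (π : A →⋆ₙₐ[ℂ] (H →L[ℂ] H)) (x : H) : Prop :=
  ∀ c ∈ C, ∃ z : ℂ, π c x = z • x

lemma exists_normalizer_inner (hC : IsRegularMasa C) (hπ : IsIrreducibleRep π) {x y : H}
    (hx : x ≠ 0) (hy : y ≠ 0) : ∃ n, Normalizes C n ∧ ⟪y, π n x⟫_ℂ ≠ 0 := by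
  by_contra h
  push Not at h
  let φ : A → ℂ := fun a => ⟪y, π a x⟫_ℂ
  have hφc : Continuous φ := by
    have : Continuous fun a => π a := map_continuous π
    fun_prop
  have hspan : ∀ a ∈ (Submodule.span ℂ {n : A | Normalizes C n}), φ a = 0 := by
    intro a ha
    induction ha using Submodule.span_induction with
    | mem n hn => exact h n hn
    | zero => simp [φ]
    | add a b _ _ iha ihb => simp [φ] at iha ihb ⊢; rw [iha, ihb, add_zero]
    | smul z a _ iha => simp [φ] at iha ⊢; exact Or.inr iha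
  have hall : ∀ a, φ a = 0 := fun a =>
    closure_minimal hspan (isClosed_eq hφc continuous_const) (hC.2.2 a)
  have h0 : ∀ z, ⟪y, z⟫_ℂ = 0 := fun z =>
    closure_minimal (s := Set.range fun a => π a x) (by rintro _ ⟨a, rfl⟩; exact hall a)
      (isClosed_eq (by fun_prop) continuous_const) (orbit_dense hπ hx z)
  exact hy (inner_self_eq_zero.1 (h0 y))

lemma exists_char_masa (hN : PropertyN A) (hC : IsRegularMasa C) :
    ∃ χ : C → ℂ, (∀ a b, χ (a * b) = χ a * χ b) ∧ (∀ a, ‖χ a‖ ≤ ‖a‖) ∧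
      (∀ (z : ℂ) a, χ (z • a) = z * χ a) ∧ (∀ a b, χ (a + b) = χ a + χ b) ∧
      (∀ a, χ (star a) = starRingEnd ℂ (χ a)) ∧ (∃ b, χ b = 1) ∧
      ∀ y, χ y = 0 → ∀ ε : ℝ, 0 < ε → ∃ s, ‖s‖ ≤ 1 ∧ χ s = 1 ∧ ‖y * s‖ ≤ ε := by
  have : IsClosed (C : Set A) := hC.isClosed
  let _ : NonUnitalCommCStarAlgebra C :=
    { NonUnitalStarSubalgebra.nonUnitalCStarAlgebra C with
      mul_comm := fun a b => Subtype.ext (hC.1 _ a.2 _ b.2) }
  have : Nontrivial C := by
    by_contra hnt
    rw [not_nontrivial_iff_subsingleton] at hnt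
    obtain ⟨a, ha⟩ := @exists_ne A hN.1 0
    have hz : ∀ c ∈ C, c = 0 := fun c hc =>
      congrArg Subtype.val (Subsingleton.elim (⟨c, hc⟩ : C) 0)
    exact ha (hz a (hC.2.1 a fun c hc => by rw [hz c hc]; simp))
  obtain ⟨χ, hadd, hsmul, hmul, hb, hstar, hone, hpeak⟩ := exists_char C
  exact ⟨χ, hmul, hb, hsmul, hadd, hstar, hone, hpeak⟩

lemma exists_eigen (hN : PropertyN A) (hC : IsRegularMasa C) (hπ : IsIrreducibleRep π) :
    ∃ x : H, x ≠ 0 ∧ Eig C π x := by
  classical
  obtain ⟨χ, hmul, hbd, hsmul, hadd, hstar, ⟨b, hb⟩, hpeak⟩ := exists_char_masa hN hC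
  have hsub : ∀ a c, χ (a - c) = χ a - χ c := fun a c => eq_sub_of_add_eq (by
    rw [← hadd, sub_add_cancel])
  have h0 : χ 0 = 0 := by simpa using hsmul 0 0
  obtain ⟨s₀, hs₀, hs₀1, -⟩ := hpeak 0 h0 1 one_pos
  set ι := {s : C // ‖s‖ ≤ 1 ∧ χ s = 1}
  have hprod : ∀ t : Finset ι, ∃ p : C, ‖p‖ ≤ 1 ∧ χ p = 1 ∧
      ∀ i ∈ t, ∀ v : H, ‖π (p : A) v‖ ≤ ‖π ((i.1 : C) : A) v‖ := by
    intro t
    induction t using Finset.induction with
    | empty => exact ⟨s₀, hs₀, hs₀1, by simp⟩
    | insert i t hi ih =>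
      obtain ⟨p, hp, hp1, hpt⟩ := ih
      refine ⟨i.1 * p, (norm_mul_le _ _).trans (mul_le_one₀ i.2.1 (norm_nonneg _) hp),
        by rw [hmul, i.2.2, hp1, one_mul], fun j hj v => ?_⟩
      have hle : ∀ (a : C), ‖a‖ ≤ 1 → ∀ w : H, ‖π (a : A) w‖ ≤ ‖w‖ := fun a ha w =>
        ((π (a : A)).le_opNorm w).trans (mul_le_of_le_one_left (norm_nonneg _)
          ((NonUnitalStarAlgHom.norm_apply_le π _).trans ha))
      rcases Finset.mem_insert.1 hj with rfl | hj
      · show ‖π (((j.1 : C) : A) * (p : A)) v‖ ≤ _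
        rw [hC.1 _ j.1.2 _ p.2, rep_mul]
        exact hle p hp _
      · show ‖π (((i.1 : C) : A) * (p : A)) v‖ ≤ _
        rw [rep_mul]
        exact (hle i.1 i.2.1 _).trans (hpt j hj v)
  obtain ⟨x, hx, hfix⟩ := exists_fixed hN hπ (⟨s₀, hs₀, hs₀1⟩ : ι)
    (fun i : ι => ((i.1 : C) : A)) (fun i => i.2.1) fun t ε hε => by
      obtain ⟨p, hp, hp1, hpt⟩ := hprod t
      have hp' : (1 : ℝ) ≤ ‖(p : A)‖ := by
        have := hbd p
        rwa [hp1, norm_one] at this
      by_contra h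
      push Not at h
      have hε1 : ε ≤ 1 := by
        by_contra h1
        obtain ⟨i, -, hlt⟩ := h 0 (by simp)
        simp at hlt
        linarith
      have hbound : ‖π (p : A)‖ ≤ √(1 - ε) := by
        refine ContinuousLinearMap.opNorm_le_bound _ (Real.sqrt_nonneg _) fun v => ?_
        rcases eq_or_ne v 0 with rfl | hv
        · simp
        obtain ⟨i, hi, hlt⟩ := h (((‖v‖⁻¹ : ℝ) : ℂ) • v)
          (by rw [norm_smul, Complex.norm_real, norm_inv, norm_norm,
            inv_mul_cancel₀ (norm_ne_zero_iff.2 hv)])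
        have h1 : ‖π ((i.1 : C) : A) v‖ ≤ √(1 - ε) * ‖v‖ := by
          rw [map_smul, norm_smul, Complex.norm_real, norm_inv, norm_norm, inv_mul_eq_div] at hlt
          exact (div_le_iff₀ (norm_pos_iff.2 hv)).1 (Real.le_sqrt_of_sq_le hlt.le)
        exact (hpt i hi v).trans h1
      rw [rep_norm hN hπ] at hbound
      have : √(1 - ε) < 1 := by
        rw [Real.sqrt_lt' one_pos]; linarith
      linarith
  refine ⟨x, hx, fun c hc => ?_⟩
  set g := star s₀ * s₀ with hg
  have hg1 : χ g = 1 := by rw [hg, hmul, hstar, hs₀1]; simp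
  have hgx : π (g : A) x = x := hfix ⟨s₀, hs₀, hs₀1⟩
  set l := χ ⟨c, hc⟩ with hl
  set y : C := ⟨c, hc⟩ * g - l • g with hy
  have hy0 : χ y = 0 := by rw [hy, hsub, hmul, hsmul, hg1, sub_self]
  refine ⟨l, ?_⟩
  have hyx : π (y : A) x = π c x - l • x := by
    show π (c * (g : A) - l • (g : A)) x = _
    rw [map_sub, map_smul, sub_apply, smul_apply, rep_mul, hgx]
  have hz : ‖π (y : A) x‖ ≤ 0 := by
    refine le_of_forall_pos_le_add fun ε hε => ?_
    obtain ⟨s, hs, hs1, hys⟩ := hpeak y hy0 (ε / (‖x‖ + 1)) (by positivity)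
    have hsx : π (star (s : A) * (s : A)) x = x := hfix ⟨s, hs, hs1⟩
    rw [← hsx, ← rep_mul, zero_add]
    have hcs : (y : A) * (star (s : A) * (s : A)) = star (s : A) * ((y : A) * (s : A)) := by
      rw [← mul_assoc, hC.1 _ y.2 _ (StarMemClass.star_mem s.2), mul_assoc]
    rw [hcs]
    refine ((π _).le_opNorm x).trans ?_
    calc ‖π (star (s : A) * ((y : A) * (s : A)))‖ * ‖x‖
        ≤ (1 * (ε / (‖x‖ + 1))) * ‖x‖ := by
          refine mul_le_mul_of_nonneg_right ((NonUnitalStarAlgHom.norm_apply_le π _).trans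
            ((norm_mul_le _ _).trans ?_)) (norm_nonneg _)
          exact mul_le_mul (by rw [norm_star]; exact hs) hys (norm_nonneg _) zero_le_one
      _ ≤ ε := by
          rw [one_mul, div_mul_eq_mul_div, div_le_iff₀ (by positivity)]
          nlinarith [norm_nonneg x]
  have := norm_le_zero_iff.1 hz
  rwa [hyx, sub_eq_zero] at this

lemma Eig.normalizer (hC : IsRegularMasa C) {x : H} (hx : Eig C π x) {n : A}
    (hn : Normalizes C n) : Eig C π (π n x) := by
  intro c hc
  obtain ⟨μ, hμ⟩ := hx _ (hC.star_mul_self_mem hn)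
  rcases eq_or_ne μ 0 with rfl | hμ0
  · refine ⟨0, ?_⟩
    have h0 : π n x = 0 := by
      have h := rep_sq π n x
      rw [hμ, zero_smul, inner_zero_right] at h
      exact norm_eq_zero.1 (by
        have h' : (0 : ℝ) = ‖π n x‖ ^ 2 := by exact_mod_cast h
        exact (pow_eq_zero_iff two_ne_zero).1 h'.symm)
    rw [h0]; simp
  obtain ⟨ν, hν⟩ := hx _ (hn c hc).1
  have hnn : n * star n ∈ C := by
    have := hC.star_mul_self_mem hn.star_mem
    rwa [star_star] at this
  refine ⟨μ⁻¹ * ν, ?_⟩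
  have h1 : μ • π c (π n x) = ν • π n x := by
    rw [← map_smul, ← map_smul, ← hμ, ← rep_mul, ← rep_mul,
      show c * n * (star n * n) = (c * (n * star n)) * n by simp [mul_assoc],
      hC.1 c hc _ hnn, show n * star n * c * n = n * (star n * c * n) by simp [mul_assoc],
      rep_mul, hν, map_smul]
  rw [mul_smul, ← h1, inv_smul_smul₀ hμ0]

lemma exists_eigen_inner (hN : PropertyN A) (hC : IsRegularMasa C) (hπ : IsIrreducibleRep π)
    {y : H} (hy : y ≠ 0) : ∃ z, Eig C π z ∧ ⟪y, z⟫_ℂ ≠ 0 := by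
  obtain ⟨x, hx, hxe⟩ := exists_eigen hN hC hπ
  obtain ⟨n, hn, hne⟩ := exists_normalizer_inner hC hπ hx hy
  exact ⟨π n x, hxe.normalizer hC hn, hne⟩

lemma exists_eigen_apply_ne (hN : PropertyN A) (hC : IsRegularMasa C) (hπ : IsIrreducibleRep π)
    {b : A} (hb : b ≠ 0) : ∃ z, Eig C π z ∧ π b z ≠ 0 := by
  obtain ⟨x, hx⟩ : ∃ x, π b x ≠ 0 := by
    by_contra h
    push Not at h
    exact hb (faithful hN hπ (by rw [map_zero]; exact ContinuousLinearMap.ext h))
  have hy : π (star b) (π b x) ≠ 0 := fun h => hx (inner_self_eq_zero.1 (by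
    have := rep_adj π b (π b x) x
    rw [h, inner_zero_left] at this
    exact this.symm))
  obtain ⟨z, hz, hne⟩ := exists_eigen_inner hN hC hπ hy
  exact ⟨z, hz, fun h => hne (by rw [rep_adj, h, inner_zero_right])⟩

end Vale.Agent.P070
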