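import Vale.Agent.P070.States

/-!
Consequences of property (N) for irreducible representations.
-/

universe u

set_option linter.unusedSectionVars false

namespace Vale.Agent.P070

open InnerProductSpace ComplexOrder
open Vale.Agent.P133

variable {A : Type u} [NonUnitalCStarAlgebra A] [PartialOrder A] [StarOrderedRing A]
variable {H : Type u} [NormedAddCommGroup H] [InnerProductSpace ℂ H] [CompleteSpace H]
variable {π : A →⋆ₙₐ[ℂ] (H →L[ℂ] H)}

lemma rep_mul (π : A →⋆ₙₐ[ℂ] (H →L[ℂ] H)) (a b : A) (x : H) : π (a * b) x = π a (π b x) := by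
  rw [map_mul]; rfl

lemma rep_adj (π : A →⋆ₙₐ[ℂ] (H →L[ℂ] H)) (a : A) (x y : H) :
    ⟪π (star a) x, y⟫_ℂ = ⟪x, π a y⟫_ℂ := by
  rw [map_star, ContinuousLinearMap.star_eq_adjoint, ContinuousLinearMap.adjoint_inner_left]

lemma rep_sq (π : A →⋆ₙₐ[ℂ] (H →L[ℂ] H)) (a : A) (x : H) :
    ⟪x, π (star a * a) x⟫_ℂ = ((‖π a x‖ ^ 2 : ℝ) : ℂ) := by
  rw [rep_mul, ← rep_adj, star_star, inner_self_eq_norm_sq_to_K]
  norm_cast

lemma faithful (hN : PropertyN A) (hπ : IsIrreducibleRep π) : Function.Injective π := by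
  refine (injective_iff_map_eq_zero π).2 fun a ha => ?_
  by_contra h0
  obtain ⟨f, hf, hfpos⟩ := exists_qstate_pos (star_mul_self_nonneg a)
    (fun h => h0 ((CStarRing.star_mul_self_eq_zero_iff a).1 h))
  obtain ⟨H', i1, i2, i3, σ, ξ, hσ, -, -, hpos, -⟩ :=
    exists_irrep (ι := PEmpty.{1}) PEmpty.elim PEmpty.elim (fun i => i.elim) (star a * a) hf
      (fun i => i.elim) hfpos
  obtain ⟨U, hU₀⟩ := hN.2 H' H σ π hσ hπ
  have hU : ∀ b v, U (σ b v) = π b (U v) := hU₀
  have h1 : σ (star a * a) ξ = 0 := by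
    apply U.injective
    rw [hU, map_zero, rep_mul, ha]
    simp
  rw [h1] at hpos
  simp at hpos

lemma rep_norm (hN : PropertyN A) (hπ : IsIrreducibleRep π) (a : A) : ‖π a‖ = ‖a‖ :=
  NonUnitalStarAlgHom.norm_map π (faithful hN hπ) a

lemma exists_irrep_of_N (hN : PropertyN A) :
    ∃ (H : Type u) (_ : NormedAddCommGroup H) (_ : InnerProductSpace ℂ H) (_ : CompleteSpace H)
      (π : A →⋆ₙₐ[ℂ] (H →L[ℂ] H)), IsIrreducibleRep π := by
  obtain ⟨a, ha⟩ := @exists_ne A hN.1 0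
  obtain ⟨f, hf, hfpos⟩ := exists_qstate_pos (star_mul_self_nonneg a)
    (fun h => ha ((CStarRing.star_mul_self_eq_zero_iff a).1 h))
  obtain ⟨H', i1, i2, i3, σ, ξ, hσ, -⟩ :=
    exists_irrep (ι := PEmpty.{1}) PEmpty.elim PEmpty.elim (fun i => i.elim) (star a * a) hf
      (fun i => i.elim) hfpos
  exact ⟨H', i1, i2, i3, σ, hσ⟩

lemma orbit_dense (hπ : IsIrreducibleRep π) {x : H} (hx : x ≠ 0) :
    DenseRange fun a => π a x := by
  let L : A →ₗ[ℂ] H :=
    { toFun := fun a => π a x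
      map_add' := fun a b => by simp
      map_smul' := fun z a => by simp }
  have hL : ∀ a, L a = π a x := fun _ => rfl
  by_cases hne : ∃ a, π a x ≠ 0
  · obtain ⟨a, ha⟩ := hne
    rcases hπ.2 L.range.topologicalClosure (Submodule.isClosed_topologicalClosure _)
      (fun b y hy => by
        rw [← SetLike.mem_coe, Submodule.topologicalClosure_coe] at hy ⊢
        refine map_mem_closure (π b).continuous hy ?_
        rintro _ ⟨c, rfl⟩
        exact ⟨b * c, by rw [hL, hL, rep_mul]⟩) with h | h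
    · have : π a x ∈ L.range.topologicalClosure :=
        Submodule.le_topologicalClosure _ ⟨a, rfl⟩
      rw [h, Submodule.mem_bot] at this
      exact absurd this ha
    · intro y
      have : y ∈ L.range.topologicalClosure := h ▸ Submodule.mem_top
      rw [← SetLike.mem_coe, Submodule.topologicalClosure_coe] at this
      exact this
  · push Not at hne
    exfalso
    rcases hπ.2 (Submodule.span ℂ {x}) (Submodule.closed_of_finiteDimensional _)
      (fun b y hy => by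
        obtain ⟨z, rfl⟩ := Submodule.mem_span_singleton.1 hy
        show π b (z • x) ∈ _
        rw [map_smul, hne]; simp) with h | h
    · exact hx (Submodule.span_singleton_eq_bot.1 h)
    · obtain ⟨a, ha⟩ := hπ.1
      refine ha (ContinuousLinearMap.ext fun y => ?_)
      obtain ⟨z, rfl⟩ := Submodule.mem_span_singleton.1 (h ▸ Submodule.mem_top : y ∈ Submodule.span ℂ {x})
      rw [map_smul, hne]; simp

/-- A family of contractions which almost attain their norm jointly has a joint fixed vector. -/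
lemma exists_fixed (hN : PropertyN A) (hπ : IsIrreducibleRep π) {ι : Type*} (i₀ : ι) (s : ι → A)
    (hs : ∀ i, ‖s i‖ ≤ 1)
    (happrox : ∀ t : Finset ι, ∀ ε : ℝ, 0 < ε → ∃ v : H, ‖v‖ ≤ 1 ∧
      ∀ i ∈ t, 1 - ε ≤ ‖π (s i) v‖ ^ 2) :
    ∃ η : H, η ≠ 0 ∧ ∀ i, π (star (s i) * s i) η = η := by
  classical
  set a : ι → A := fun i => star (s i) * s i with ha
  have hle : ∀ i, ∀ f ∈ qstates A, (f (a i)).re ≤ 1 := fun i f hf =>
    ((le_abs_self _).trans (Complex.abs_re_le_norm _)).trans ((hf.2.2.2 _).trans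
      (by rw [CStarRing.norm_star_mul_self]; exact mul_le_one₀ (hs i) (norm_nonneg _) (hs i)))
  obtain ⟨f, hf, hfi⟩ : (qstates A ∩ ⋂ p : ι × ℕ,
      {f : A → ℂ | 1 - 1 / ((p.2 : ℝ) + 1) ≤ (f (a p.1)).re}).Nonempty := by
    refine isCompact_qstates.inter_iInter_nonempty _
      (fun p => isClosed_le continuous_const (by fun_prop)) fun u => ?_
    obtain ⟨v, hv, hvs⟩ := happrox (u.image Prod.fst) (1 / (((u.sup Prod.snd : ℕ) : ℝ) + 1))
      (by positivity)
    refine ⟨_, vec_mem_qstates π hv, Set.mem_iInter₂.2 fun p hp => ?_⟩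
    show 1 - 1 / ((p.2 : ℝ) + 1) ≤ (⟪v, π (a p.1) v⟫_ℂ).re
    rw [rep_sq, Complex.ofReal_re]
    refine le_trans ?_ (hvs p.1 (Finset.mem_image_of_mem _ hp))
    have hpn : (p.2 : ℝ) ≤ ((u.sup Prod.snd : ℕ) : ℝ) := by
      exact_mod_cast Finset.le_sup (f := Prod.snd) hp
    gcongr
  have hf1 : ∀ i, (f (a i)).re = 1 := fun i => by
    refine le_antisymm (hle i f hf) (le_of_forall_pos_le_add fun ε hε => ?_)
    obtain ⟨n, hn⟩ := exists_nat_one_div_lt hε
    have := Set.mem_iInter.1 hfi (i, n)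
    simp only [Set.mem_ofPred_eq] at this
    linarith
  obtain ⟨H', i1, i2, i3, σ, ξ, hσ, hξ, hξi, hpos, -⟩ :=
    exists_irrep a (fun _ => 1) hle (a i₀) hf hf1 (by rw [hf1]; exact one_pos)
  obtain ⟨U, hU₀⟩ := hN.2 H' H σ π hσ hπ
  have hU : ∀ b v, U (σ b v) = π b (U v) := hU₀
  have hfix : ∀ i, σ (a i) ξ = ξ := fun i => by
    have h1 : ‖σ (a i) ξ‖ ≤ 1 := ((σ (a i)).le_opNorm ξ).trans (mul_le_one₀
      ((NonUnitalStarAlgHom.norm_apply_le σ _).trans (by
        rw [CStarRing.norm_star_mul_self]; exact mul_le_one₀ (hs i) (norm_nonneg _) (hs i)))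
      (norm_nonneg _) hξ)
    have h2 : ‖σ (a i) ξ - ξ‖ ^ 2 ≤ 0 := by
      rw [norm_sub_sq (𝕜 := ℂ), ← inner_re_symm, RCLike.re_to_complex, hξi i]
      nlinarith [norm_nonneg (σ (a i) ξ), norm_nonneg ξ]
    exact sub_eq_zero.1 (norm_eq_zero.1 (by nlinarith [norm_nonneg (σ (a i) ξ - ξ)]))
  refine ⟨U ξ, fun h => ?_, fun i => by rw [← hU, hfix]⟩
  rw [U.injective (h.trans U.map_zero.symm)] at hpos
  simp at hpos

end Vale.Agent.P070
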