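import Vale.Agent.P070.Masa
import Vale.Agent.P133.Local

/-!
If every positive element of the masa splits, there is a contradiction with property (N).
-/

universe u

set_option linter.unusedSectionVars false

namespace Vale.Agent.P070

open InnerProductSpace ComplexOrder
open Vale.Agent.P133

variable {A : Type u} [NonUnitalCStarAlgebra A] [PartialOrder A] [StarOrderedRing A]
variable {C : NonUnitalStarSubalgebra ℂ A}
variable {H : Type u} [NormedAddCommGroup H] [InnerProductSpace ℂ H] [CompleteSpace H]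
variable {π : A →⋆ₙₐ[ℂ] (H →L[ℂ] H)}

/-- Every nonzero positive element of `C` dominates two orthogonal ones. -/
def Splits (C : NonUnitalStarSubalgebra ℂ A) : Prop :=
  ∀ a ∈ C, 0 ≤ a → a ≠ 0 → ∃ a₁ a₂ : A, a₁ ∈ C ∧ a₂ ∈ C ∧ 0 ≤ a₁ ∧ 0 ≤ a₂ ∧ a₁ ≠ 0 ∧ a₂ ≠ 0 ∧
    a₁ * a₂ = 0 ∧ RMem a a₁ ∧ RMem a a₂

lemma RMem.fixed {p a q : A} (h : RMem a q) (hp : p * a = a) : p * q = q :=
  h.of_closed (S := {q | p * q = q}) (isClosed_eq (by fun_prop) continuous_id)
    fun w => by simp only [Set.mem_ofPred_eq, ← mul_assoc, hp]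

/-- The square root of `ramp(t) / t`. -/
noncomputable def rootFun : ℝ → ℝ := fun t => √(rampFun (3/8) t / max t (3/8))

lemma continuous_rootFun : Continuous rootFun :=
  Real.continuous_sqrt.comp ((continuous_rampFun _).div₀ (by fun_prop)
    fun t => ((by norm_num : (0:ℝ) < 3/8).trans_le (le_max_right _ _)).ne')

lemma rootFun_zero : rootFun 0 = 0 := by simp [rootFun, rampFun_zero]

/-- `rootFun` of an element. -/
noncomputable def root (c : A) : A := cfcₙ rootFun c

lemma star_root (c : A) : star (root c) = root c := (IsSelfAdjoint.cfcₙ).star_eq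

lemma root_mul (c : A) (hc : 0 ≤ c) : root c * root c * c = ramp (3/8) c := by
  have hid : cfcₙ (fun t : ℝ => t) c = c := cfcₙ_id' ℝ c
  have hcr := continuous_rootFun
  conv_lhs => arg 2; rw [← hid]
  rw [root, ramp, ← cfcₙ_mul _ _ c hcr.continuousOn rootFun_zero hcr.continuousOn rootFun_zero,
    ← cfcₙ_mul (fun t => rootFun t * rootFun t) (fun t => t) c (hcr.mul hcr).continuousOn
      (by simp [rootFun_zero]) (by fun_prop) (by simp)]
  refine cfcₙ_congr fun t _ => ?_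
  have hm : (0:ℝ) < max t (3/8) := (by norm_num : (0:ℝ) < 3/8).trans_le (le_max_right _ _)
  have hr : 0 ≤ rampFun (3/8) t := le_min zero_le_one (by positivity)
  simp only [rootFun, Real.mul_self_sqrt (div_nonneg hr hm.le)]
  rcases le_total t (3/8) with h | h
  · have h0 : rampFun (3/8) t = 0 := by
      simp only [rampFun]
      rw [max_eq_left (by norm_num : (0:ℝ) ≤ 3/8), max_eq_right (by linarith)]
      simp
    simp [h0]
  · rw [max_eq_left h, div_mul_cancel₀ _ (by linarith)]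

/-- One stage: orthogonal normalisers `n i` with common `star (n i) * n i = c`. -/
structure Stage (C : NonUnitalStarSubalgebra ℂ A) : Type (max u 1) where
  ι : Type
  [fin : Fintype ι]
  ne : Nonempty ι
  n : ι → A
  D : ι → A
  c : A
  c_mem : c ∈ C
  c_nonneg : 0 ≤ c
  c_norm : ‖c‖ = 1
  n_norm : ∀ i, Normalizes C (n i)
  nn : ∀ i, star (n i) * n i = c
  D_mem : ∀ i, D i ∈ C
  D_star : ∀ i, star (D i) = D i
  D_le : ∀ i, ‖D i‖ ≤ 1
  D_n : ∀ i, D i * n i = n i
  D_orth : ∀ i j, i ≠ j → D i * D j = 0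

attribute [instance] Stage.fin

namespace Stage

variable (L : Stage C)

/-- The scalar normalising the sum. -/
noncomputable def k : ℂ := (((√(Fintype.card L.ι : ℝ))⁻¹ : ℝ) : ℂ)

/-- The superposition of the `n i`. -/
noncomputable def x : A := L.k • ∑ i, L.n i

/-- The contraction whose range projection is near that of the superposition. -/
noncomputable def S : A := star (L.x * root L.c)

/-- The positive contraction of the stage. -/
noncomputable def h : A := star L.S * L.S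

lemma orth {i j : L.ι} (hij : i ≠ j) : star (L.n i) * L.n j = 0 := by
  rw [← L.D_n i, ← L.D_n j, star_mul, L.D_star, mul_assoc, ← mul_assoc (L.D i), L.D_orth i j hij]
  simp

lemma x_star_x : star L.x * L.x = L.c := by
  classical
  have hK : (0:ℝ) < Fintype.card L.ι := by
    have := L.ne
    exact_mod_cast Fintype.card_pos
  have hkk : star L.k * L.k = ((Fintype.card L.ι : ℝ)⁻¹ : ℝ) := by
    simp only [k, Complex.star_def, Complex.conj_ofReal, ← Complex.ofReal_mul]
    rw [← mul_inv, Real.mul_self_sqrt hK.le]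
  rw [x, star_smul, star_sum, smul_mul_smul_comm, Finset.sum_mul, hkk]
  have hin : ∀ i, star (L.n i) * ∑ j, L.n j = L.c := fun i => by
    rw [Finset.mul_sum, Finset.sum_eq_single i (fun j _ hj => L.orth (Ne.symm hj)) (by simp),
      L.nn]
  simp only [hin, Finset.sum_const, Finset.card_univ]
  rw [← Nat.cast_smul_eq_nsmul ℂ, smul_smul]
  push_cast
  rw [inv_mul_cancel₀ (by exact_mod_cast hK.ne'), one_smul]

lemma root_mem (hC : IsRegularMasa C) : root L.c ∈ C := hC.cfcₙ_mem L.c_mem _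

lemma star_S : star L.S = L.x * root L.c := by rw [S, star_star]

lemma norm_star_mul (hC : IsRegularMasa C) {z : A} (hz : star z * z = L.c) :
    ‖star (z * root L.c) * (z * root L.c)‖ ≤ 1 := by
  rw [star_mul, star_root, mul_assoc, ← mul_assoc (star z), hz,
    hC.1 _ L.c_mem _ (L.root_mem hC), ← mul_assoc, root_mul _ L.c_nonneg]
  exact norm_ramp_le (by norm_num) _

lemma norm_S_le (hC : IsRegularMasa C) : ‖L.S‖ ≤ 1 := by
  have h := L.norm_star_mul hC L.x_star_x
  rw [CStarRing.norm_star_mul_self] at h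
  rw [S, norm_star]
  nlinarith [norm_nonneg (L.x * root L.c)]

lemma h_mul_x (hC : IsRegularMasa C) : L.h * L.x = L.x * ramp (3/8) L.c := by
  rw [h, star_S, S, star_mul, star_root]
  rw [show L.x * root L.c * (root L.c * star L.x) * L.x
    = L.x * (root L.c * root L.c * (star L.x * L.x)) by simp [mul_assoc],
    L.x_star_x, root_mul _ L.c_nonneg]

lemma ramp_ne (hC : IsRegularMasa C) : ramp (3/8) L.c ≠ 0 := by
  intro h0
  have h1 := ramp_mul_cut (κ := 3/8) (by norm_num) L.c_nonneg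
  rw [h0, zero_mul] at h1
  have h2 := norm_sub_cut_le (κ := 2 * (3/8)) (by norm_num) L.c_nonneg
  rw [← h1, sub_zero, L.c_norm] at h2
  norm_num at h2

lemma h_ne (hC : IsRegularMasa C) : L.h ≠ 0 := by
  intro h0
  have hS : star L.S = 0 := by
    rw [star_eq_zero]; exact (CStarRing.star_mul_self_eq_zero_iff _).1 h0
  have h1 : root L.c * (star L.x * (L.x * root L.c)) = 0 := by
    rw [← L.star_S, hS]; simp
  rw [← mul_assoc (star L.x), L.x_star_x, hC.1 _ L.c_mem _ (L.root_mem hC), ← mul_assoc,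
    root_mul _ L.c_nonneg] at h1
  exact L.ramp_ne hC h1

end Stage

lemma exists_stage (hN : PropertyN A) (hC : IsRegularMasa C) :
    ∃ L : Stage C, Fintype.card L.ι = 1 := by
  obtain ⟨χ, hmul, hbd, -, -, hstar, ⟨b, hb⟩, -⟩ := exists_char_masa hN hC
  set g₀ := star (b : A) * (b : A) with hg₀
  have hg₀0 : g₀ ≠ 0 := fun h => by
    have : (b : A) = 0 := (CStarRing.star_mul_self_eq_zero_iff _).1 h
    have hb0 : ‖b‖ = 0 := by
      show ‖(b : A)‖ = 0
      rw [this, norm_zero]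
    have := hbd b
    rw [hb, norm_one, hb0] at this
    linarith
  set g : A := ((‖g₀‖⁻¹ : ℝ)) • g₀ with hg
  have hgC : g ∈ C := by
    rw [hg, ← Complex.coe_smul]
    exact SMulMemClass.smul_mem _ (mul_mem (StarMemClass.star_mem b.2) b.2)
  have hg0 : 0 ≤ g := smul_nonneg (by positivity) (star_mul_self_nonneg _)
  have hg1 : ‖g‖ = 1 := by
    rw [hg, norm_smul, norm_inv, norm_norm, inv_mul_cancel₀ (norm_ne_zero_iff.2 hg₀0)]
  set a := cut (2 * (3/8)) g with ha
  have ha0 : a ≠ 0 := fun h => by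
    have h2 := norm_sub_cut_le (κ := 2 * (3/8)) (by norm_num) hg0
    rw [← ha, h, sub_zero, hg1] at h2
    norm_num at h2
  set c : A := (‖a‖⁻¹ : ℝ) • a with hc
  have hcC : c ∈ C := by
    rw [hc, ← Complex.coe_smul]
    exact SMulMemClass.smul_mem _ (hC.cfcₙ_mem hgC _)
  have hc0 : 0 ≤ c := smul_nonneg (by positivity) (cut_nonneg _ _)
  have hRc : ramp (3/8) g * c = c := by
    rw [hc, mul_smul_comm, ha, ramp_mul_cut (by norm_num) hg0]
  refine ⟨{
    ι := Unit
    ne := inferInstance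
    n := fun _ => CFC.sqrt c
    D := fun _ => ramp (3/8) g
    c := c
    c_mem := hcC
    c_nonneg := hc0
    c_norm := by rw [hc, norm_smul, norm_inv, norm_norm, inv_mul_cancel₀ (norm_ne_zero_iff.2 ha0)]
    n_norm := fun _ => normalizes_of_mem (hC.sqrt_mem hcC hc0)
    nn := fun _ => by
      rw [(IsSelfAdjoint.of_nonneg (CFC.sqrt_nonneg c)).star_eq, CFC.sqrt_mul_sqrt_self c hc0]
    D_mem := fun _ => hC.cfcₙ_mem hgC _
    D_star := fun _ => star_ramp _ _
    D_le := fun _ => norm_ramp_le (by norm_num) _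
    D_n := fun _ => RMem.fixed (by rw [CFC.sqrt_eq_real_sqrt c hc0]; exact rmem_cfcₙ _ _) hRc
    D_orth := fun i j hij => (hij (Subsingleton.elim i j)).elim }, rfl⟩

lemma Stage.exists_next (hN : PropertyN A) (hC : IsRegularMasa C) (hπ : IsIrreducibleRep π)
    (hS : Splits C) (L : Stage C) :
    ∃ L' : Stage C, Fintype.card L'.ι = Fintype.card L.ι * 2 ∧ L.h * L'.h = L'.h := by
  classical
  have hR := L.root_mem hC
  set r := ramp (3/8) L.c with hr
  set a := cut (2 * (3/8)) L.c with ha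
  have hra : r * a = a := ramp_mul_cut (by norm_num) L.c_nonneg
  have ha0 : a ≠ 0 := fun h => by
    have h2 := norm_sub_cut_le (κ := 2 * (3/8)) (by norm_num) L.c_nonneg
    rw [← ha, h, sub_zero, L.c_norm] at h2
    norm_num at h2
  have haC : a ∈ C := hC.cfcₙ_mem L.c_mem _
  obtain ⟨a₁, a₂, ha₁C, ha₂C, ha₁, ha₂, ha₁0, ha₂0, horth, hm₁, hm₂⟩ :=
    hS a haC (cut_nonneg _ _) ha0
  set κ₁ := ‖a₁‖ / 4 with hκ₁
  set κ₂ := ‖a₂‖ / 4 with hκ₂
  have hκ₁0 : 0 < κ₁ := by positivity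
  have hκ₂0 : 0 < κ₂ := by positivity
  set b₁ := cut (2 * κ₁) a₁ with hb₁
  set b₂ := cut (2 * κ₂) a₂ with hb₂
  set G₁ := ramp κ₁ a₁ with hG₁
  set G₂ := ramp κ₂ a₂ with hG₂
  have hb₁C : b₁ ∈ C := hC.cfcₙ_mem ha₁C _
  have hb₂C : b₂ ∈ C := hC.cfcₙ_mem ha₂C _
  have hb₁s : star b₁ = b₁ := (cut_nonneg _ _).isSelfAdjoint.star_eq
  have hb₁0 : b₁ ≠ 0 := fun h => by
    have h2 := norm_sub_cut_le (κ := 2 * κ₁) (by positivity) ha₁
    rw [← hb₁, h, sub_zero] at h2
    linarith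
  have hb₂0 : b₂ ≠ 0 := fun h => by
    have h2 := norm_sub_cut_le (κ := 2 * κ₂) (by positivity) ha₂
    rw [← hb₂, h, sub_zero] at h2
    linarith
  have hG₁b : G₁ * b₁ = b₁ := ramp_mul_cut hκ₁0 ha₁
  have hG₂b : G₂ * b₂ = b₂ := ramp_mul_cut hκ₂0 ha₂
  have hrb₁ : r * b₁ = b₁ := RMem.fixed (hm₁.trans (rmem_cut _ _)) hra
  have hrb₂ : r * b₂ = b₂ := RMem.fixed (hm₂.trans (rmem_cut _ _)) hra
  have hG12 : G₁ * G₂ = 0 := by
    have := RMem.star_mul_eq_zero_self (by exact ha₁.isSelfAdjoint.star_eq) horth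
      (rmem_cfcₙ (rampFun κ₁) a₁) (rmem_cfcₙ (rampFun κ₂) a₂)
    rwa [← ramp, ← ramp, star_ramp] at this
  obtain ⟨ξ₁, hξ₁, hb₁ξ⟩ := exists_eigen_apply_ne hN hC hπ hb₁0
  obtain ⟨ξ₂, hξ₂, hb₂ξ⟩ := exists_eigen_apply_ne hN hC hπ hb₂0
  obtain ⟨β₁, hβ₁⟩ := hξ₁ b₁ hb₁C
  obtain ⟨β₂, hβ₂⟩ := hξ₂ b₂ hb₂C
  rw [hβ₁] at hb₁ξ
  rw [hβ₂] at hb₂ξ
  rw [smul_ne_zero_iff] at hb₁ξ hb₂ξ
  obtain ⟨ν, hν, hνne⟩ := exists_normalizer_inner hC hπ hb₁ξ.2 hb₂ξ.2
  set ν' := b₂ * ν * b₁ with hν'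
  have hrν : r * ν' = ν' := by rw [hν', ← mul_assoc, ← mul_assoc, hrb₂]
  have hGν : G₂ * ν' = ν' := by rw [hν', ← mul_assoc, ← mul_assoc, hG₂b]
  have hν'N : Normalizes C ν' :=
    ((normalizes_of_mem hb₂C).mul hν).mul (normalizes_of_mem hb₁C)
  set sc := CFC.sqrt L.c with hsc
  have hscC : sc ∈ C := hC.sqrt_mem L.c_mem L.c_nonneg
  have hscs : star sc = sc := (IsSelfAdjoint.of_nonneg (CFC.sqrt_nonneg L.c)).star_eq
  have hscsc : sc * sc = L.c := CFC.sqrt_mul_sqrt_self L.c L.c_nonneg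
  set d := star ν' * L.c * ν' with hd
  have hdC : d ∈ C := (hν'N L.c L.c_mem).1
  have hd0 : 0 ≤ d := star_left_conjugate_nonneg L.c_nonneg ν'
  set sd := CFC.sqrt d with hsd
  have hsdC : sd ∈ C := hC.sqrt_mem hdC hd0
  have hsds : star sd = sd := (IsSelfAdjoint.of_nonneg (CFC.sqrt_nonneg d)).star_eq
  have hsdsd : sd * sd = d := CFC.sqrt_mul_sqrt_self d hd0
  set E := L.c * d * (b₁ * b₁) with hE
  have hEC : E ∈ C := mul_mem (mul_mem L.c_mem hdC) (mul_mem hb₁C hb₁C)
  have cc : ∀ {p q : A}, p ∈ C → q ∈ C → p * q = q * p := fun hp hq => hC.1 _ hp _ hq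
  have hw0 : star (sd * b₁) * L.c * (sd * b₁) = E := by
    rw [star_mul, hsds, hb₁s, show b₁ * sd * L.c * (sd * b₁) = b₁ * (sd * L.c * sd) * b₁ by
      simp [mul_assoc], cc hsdC L.c_mem, mul_assoc L.c, hsdsd, cc hb₁C (mul_mem L.c_mem hdC),
      mul_assoc]
  have hw1 : star (ν' * sc * b₁) * L.c * (ν' * sc * b₁) = E := by
    rw [show star (ν' * sc * b₁) * L.c * (ν' * sc * b₁) = b₁ * (sc * d * sc) * b₁ by
      simp [d, star_mul, hscs, hb₁s, mul_assoc], cc hscC hdC, mul_assoc d, hscsc,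
      cc hdC L.c_mem, cc hb₁C (mul_mem L.c_mem hdC), mul_assoc]
  have hE0 : 0 ≤ E := hw0 ▸ star_left_conjugate_nonneg L.c_nonneg _
  have hEne : E ≠ 0 := by
    intro h0
    obtain ⟨γ, hγ⟩ := hξ₁ L.c L.c_mem
    obtain ⟨δ, hδ⟩ := hξ₁ d hdC
    have hγ0 : γ ≠ 0 := by
      intro h
      have : π (r * b₁) ξ₁ = 0 := by
        rw [rep_mul, hβ₁, map_smul, hr, ← root_mul _ L.c_nonneg, rep_mul, hγ, h]
        simp
      rw [hrb₁, hβ₁] at this
      exact smul_ne_zero hb₁ξ.1 hb₁ξ.2 this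
    have hδ0 : δ ≠ 0 := by
      intro h
      have h1 := rep_sq π (sc * ν') ξ₁
      rw [show star (sc * ν') * (sc * ν') = d by
        rw [hd, star_mul, hscs, ← hscsc]; simp [mul_assoc], hδ, h, zero_smul,
        inner_zero_right] at h1
      have h2 : π (sc * ν') ξ₁ = 0 := norm_eq_zero.1 (by
        have h' : (0 : ℝ) = ‖π (sc * ν') ξ₁‖ ^ 2 := by exact_mod_cast h1
        exact (pow_eq_zero_iff two_ne_zero).1 h'.symm)
      have h3 : π (r * ν') ξ₁ = 0 := by
        have e : root L.c * root L.c * L.c * ν' = root L.c * root L.c * sc * (sc * ν') := by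
          rw [mul_assoc _ sc, ← mul_assoc sc, hscsc]; simp only [mul_assoc]
        rw [hr, ← root_mul _ L.c_nonneg, e, rep_mul, h2, map_zero]
      rw [hrν, hν', rep_mul, hβ₁, map_smul, rep_mul] at h3
      have h4 : ⟪ξ₂, π b₂ (π ν ξ₁)⟫_ℂ = 0 := by
        rw [(smul_eq_zero.1 h3).resolve_left hb₁ξ.1, inner_zero_right]
      rw [← rep_adj, (cut_nonneg (2 * κ₂) a₂).isSelfAdjoint.star_eq, ← hb₂, hβ₂,
        inner_smul_left] at h4
      exact mul_ne_zero (by simpa using hb₂ξ.1) hνne h4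
    have h1 : π E ξ₁ = (γ * δ * (β₁ * β₁)) • ξ₁ := by
      rw [hE, rep_mul, rep_mul π b₁, hβ₁, map_smul, hβ₁, rep_mul, map_smul, map_smul, map_smul,
        map_smul, hδ, map_smul, hγ]
      simp [smul_smul]
      ring_nf
    rw [h0, map_zero] at h1
    exact smul_ne_zero (mul_ne_zero (mul_ne_zero hγ0 hδ0) (mul_ne_zero hb₁ξ.1 hb₁ξ.1)) hb₁ξ.2
      (h1.symm.trans (by simp))
  set σ : ℝ := (√‖E‖)⁻¹ with hσ
  set c' : A := (‖E‖⁻¹ : ℝ) • E with hc'
  have hσσ : (σ : ℂ) * σ = ((‖E‖⁻¹ : ℝ) : ℂ) := by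
    rw [← Complex.ofReal_mul, hσ, ← mul_inv, Real.mul_self_sqrt (norm_nonneg _)]
  set w : Bool → A := fun j => (σ : ℂ) • (cond j (ν' * sc * b₁) (sd * b₁)) with hw
  set G : Bool → A := fun j => cond j G₂ G₁ with hG
  have hGC : ∀ j, G j ∈ C := fun j => by
    cases j
    · exact hC.cfcₙ_mem ha₁C _
    · exact hC.cfcₙ_mem ha₂C _
  have hwN : ∀ j, Normalizes C (w j) := fun j => by
    have h1 : ∀ z : A, Normalizes C z → Normalizes C ((σ : ℂ) • z) := fun z hz c hc => by
      rw [star_smul, smul_mul_assoc, smul_mul_assoc, mul_smul_comm, smul_mul_assoc,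
        smul_mul_assoc, mul_smul_comm]
      exact ⟨SMulMemClass.smul_mem _ (SMulMemClass.smul_mem _ (hz c hc).1),
        SMulMemClass.smul_mem _ (SMulMemClass.smul_mem _ (hz c hc).2)⟩
    refine h1 _ ?_
    cases j
    · exact normalizes_of_mem (mul_mem hsdC hb₁C)
    · exact (hν'N.mul (normalizes_of_mem hscC)).mul (normalizes_of_mem hb₁C)
  have hwc : ∀ j, star (w j) * L.c * w j = c' := fun j => by
    rw [hw]
    simp only [star_smul, Complex.star_def, Complex.conj_ofReal, smul_mul_assoc, mul_smul_comm,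
      smul_smul, hσσ]
    rw [hc', ← Complex.coe_smul]
    cases j
    · simp only [cond_false, hw0]
    · simp only [cond_true, hw1]
  have hrw : ∀ j, r * w j = w j := fun j => by
    rw [hw]
    simp only [mul_smul_comm]
    cases j
    · simp only [cond_false]
      rw [← mul_assoc, cc (p := r) (hC.cfcₙ_mem L.c_mem _) hsdC, mul_assoc, hrb₁]
    · simp only [cond_true]
      rw [← mul_assoc, ← mul_assoc, hrν]
  have hGw : ∀ j, G j * w j = w j := fun j => by
    rw [hw]
    simp only [mul_smul_comm]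
    cases j
    · simp only [cond_false, G]
      rw [← mul_assoc, cc (p := G₁) (hGC false) hsdC, mul_assoc]
      exact congrArg _ (congrArg _ hG₁b)
    · simp only [cond_true, G]
      rw [← mul_assoc, ← mul_assoc, hGν]
  have hGG : ∀ j j', j ≠ j' → G j * G j' = 0 := by
    intro j j' hjj
    cases j <;> cases j' <;> simp only [G, cond_true, cond_false] <;> try exact absurd rfl hjj
    · exact hG12
    · rw [cc (p := G₂) (q := G₁) (hGC true) (hGC false)]; exact hG12
  set D' : L.ι × Bool → A := fun p => L.n p.1 * root L.c * G p.2 * star (L.n p.1 * root L.c)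
    with hD'
  let L' : Stage C := {
    ι := L.ι × Bool
    ne := by have := L.ne; exact inferInstance
    n := fun p => L.n p.1 * w p.2
    D := D'
    c := c'
    c_mem := by rw [hc', ← Complex.coe_smul]; exact SMulMemClass.smul_mem _ hEC
    c_nonneg := smul_nonneg (by positivity) hE0
    c_norm := by
      rw [hc', norm_smul, norm_inv, norm_norm, inv_mul_cancel₀ (norm_ne_zero_iff.2 hEne)]
    n_norm := fun p => (L.n_norm p.1).mul (hwN p.2)
    nn := fun p => by
      rw [star_mul, mul_assoc, ← mul_assoc (star (L.n p.1)), L.nn, ← mul_assoc, hwc]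
    D_mem := fun p => by
      rw [show D' p = L.n p.1 * (root L.c * G p.2 * root L.c) * star (L.n p.1) by
        simp [D', star_mul, star_root, mul_assoc]]
      exact (L.n_norm p.1 _ (mul_mem (mul_mem hR (hGC _)) hR)).2
    D_star := fun p => by
      have : star (G p.2) = G p.2 := by cases p.2 <;> exact star_ramp _ _
      simp [D', star_mul, this, mul_assoc]
    D_le := fun p => by
      have h1 := L.norm_star_mul hC (L.nn p.1)
      rw [CStarRing.norm_star_mul_self] at h1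
      have h2 : ‖G p.2‖ ≤ 1 := by
        cases p.2
        · exact norm_ramp_le hκ₁0 _
        · exact norm_ramp_le hκ₂0 _
      refine (norm_mul_le _ _).trans ?_
      rw [norm_star]
      refine (mul_le_mul_of_nonneg_right ((norm_mul_le _ _).trans
        (mul_le_of_le_one_right (norm_nonneg _) h2)) (norm_nonneg _)).trans h1
    D_n := fun p => by
      rw [show D' p * (L.n p.1 * w p.2) =
        L.n p.1 * (root L.c * G p.2 * root L.c * (star (L.n p.1) * L.n p.1)) * w p.2 by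
          simp [D', star_mul, star_root, mul_assoc], L.nn,
        cc (p := root L.c) hR (hGC p.2), mul_assoc (G p.2), mul_assoc (G p.2),
        root_mul _ L.c_nonneg, mul_assoc, mul_assoc (G p.2), hrw, hGw]
    D_orth := fun p q hpq => by
      rw [show D' p * D' q = L.n p.1 * (root L.c * G p.2 * root L.c) * (star (L.n p.1) * L.n q.1)
        * (root L.c * G q.2 * root L.c * star (L.n q.1)) by
          simp [D', star_mul, star_root, mul_assoc]]
      by_cases h : p.1 = q.1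
      · have h2 : p.2 ≠ q.2 := fun h2 => hpq (Prod.ext h h2)
        rw [← h, L.nn, show L.n p.1 * (root L.c * G p.2 * root L.c) * L.c *
          (root L.c * G q.2 * root L.c * star (L.n p.1)) =
          L.n p.1 * (root L.c * (G p.2 * (root L.c * L.c * root L.c) * G q.2) * root L.c)
            * star (L.n p.1) by simp [mul_assoc],
          cc (hGC p.2) (mul_mem (mul_mem hR L.c_mem) hR), mul_assoc _ (G p.2), hGG _ _ h2]
        simp
      · rw [L.orth h]
        simp }
  refine ⟨L', by simp [L'], ?_⟩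
  have hsqrt2 : L'.k = L.k * ((√2)⁻¹ : ℝ) := by
    have : Fintype.card L'.ι = Fintype.card L.ι * 2 := by simp [L']
    simp only [Stage.k, this]
    push_cast
    rw [Real.sqrt_mul (by positivity), Complex.ofReal_mul]
    rw [mul_inv]
  have hx : L'.x = L.x * ((((√2)⁻¹ : ℝ) : ℂ) • (w true + w false)) := by
    rw [Stage.x, Stage.x, hsqrt2, mul_smul_comm, smul_mul_assoc, smul_smul, mul_comm L.k,
      Finset.sum_mul]
    refine congrArg _ ?_
    show ∑ p : L.ι × Bool, L.n p.1 * w p.2 = _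
    rw [Fintype.sum_prod_type]
    exact Finset.sum_congr rfl fun i _ => by rw [Fintype.sum_bool, mul_add]
  have hhx : L.h * L'.x = L'.x := by
    rw [hx, ← mul_assoc, L.h_mul_x hC, mul_assoc, mul_smul_comm, mul_add, hrw, hrw]
  show L.h * (star L'.S * L'.S) = star L'.S * L'.S
  rw [L'.star_S, ← mul_assoc, ← mul_assoc, hhx]

lemma exists_C_apply_ne (hC : IsRegularMasa C) (hπ : IsIrreducibleRep π) {z : H} (hz : z ≠ 0) :
    ∃ g ∈ C, π g z ≠ 0 := by
  by_contra h
  push Not at h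
  obtain ⟨n, hn, hne⟩ := exists_normalizer_inner hC hπ hz hz
  have h0 : π n z = 0 := by
    have h1 := rep_sq π n z
    rw [h _ (hC.star_mul_self_mem hn), inner_zero_right] at h1
    have h' : (0 : ℝ) = ‖π n z‖ ^ 2 := by exact_mod_cast h1
    exact norm_eq_zero.1 ((pow_eq_zero_iff two_ne_zero).1 h'.symm)
  exact hne (by rw [h0, inner_zero_right])

theorem splits_absurd (hN : PropertyN A) (hC : IsRegularMasa C) (hπ : IsIrreducibleRep π)
    (hS : Splits C) : False := by
  classical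
  obtain ⟨L₀, hL₀⟩ := exists_stage hN hC
  choose step hstep hchain using fun L => Stage.exists_next hN hC hπ hS L
  obtain ⟨L, hL0, hsucc⟩ : ∃ L : ℕ → Stage C, L 0 = L₀ ∧ ∀ m, L (m + 1) = step (L m) :=
    ⟨fun m => Nat.rec L₀ (fun _ M => step M) m, rfl, fun _ => rfl⟩
  have hcard : ∀ m, Fintype.card (L m).ι = 2 ^ m := fun m => by
    induction m with
    | zero =>
      generalize L 0 = X at hL0
      subst hL0
      simpa using hL₀
    | succ m ih =>
      have e := hsucc m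
      generalize L (m + 1) = X at e
      subst e
      rw [hstep, ih, pow_succ]
  have hcc : ∀ j m, j < m → (L j).h * (L m).h = (L m).h := by
    intro j m hjm
    induction m with
    | zero => omega
    | succ m ih =>
      rw [hsucc]
      rcases Nat.lt_succ_iff_lt_or_eq.1 hjm with h | h
      · rw [← hchain (L m), ← mul_assoc, ih h]
      · rw [h]; exact hchain _
  obtain ⟨η, hη, hfix⟩ := exists_fixed hN hπ 0 (fun m => (L m).S) (fun m => (L m).norm_S_le hC)
    fun t ε hε => by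
      obtain ⟨N, hN'⟩ : ∃ N, ∀ j ∈ t, j < N := ⟨t.sup id + 1, fun j hj =>
        Nat.lt_succ_of_le (Finset.le_sup (f := id) hj)⟩
      obtain ⟨u, hu⟩ : ∃ u, π (L N).h u ≠ 0 := by
        by_contra h
        push Not at h
        exact (L N).h_ne hC (faithful hN hπ (by rw [map_zero]; exact ContinuousLinearMap.ext h))
      set y := π (L N).h u with hy
      set v : H := ((‖y‖⁻¹ : ℝ) : ℂ) • y with hv
      have hv1 : ‖v‖ = 1 := by
        rw [hv, norm_smul, Complex.norm_real, norm_inv, norm_norm,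
          inv_mul_cancel₀ (norm_ne_zero_iff.2 hu)]
      refine ⟨v, hv1.le, fun j hj => ?_⟩
      have hjv : π (L j).h v = v := by
        rw [hv, map_smul, hy, ← rep_mul, hcc j N (hN' j hj)]
      have h1 := rep_sq π (L j).S v
      rw [← Stage.h, hjv, inner_self_eq_norm_sq_to_K, hv1] at h1
      have h2 : (1 : ℝ) = ‖π (L j).S v‖ ^ 2 := by
        apply_fun Complex.re at h1
        simpa [← Complex.ofReal_pow] using h1
      linarith
  obtain ⟨ζ, hζ, hζη⟩ := exists_eigen_inner hN hC hπ hη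
  have hζ0 : ζ ≠ 0 := fun h => hζη (by rw [h, inner_zero_right])
  obtain ⟨g, hgC, hgζ⟩ := exists_C_apply_ne hC hπ hζ0
  obtain ⟨μ, hμ⟩ := hζ _ (mul_mem (StarMemClass.star_mem hgC) hgC)
  have hνdef : μ = (((‖π g ζ‖ / ‖ζ‖) ^ 2 : ℝ) : ℂ) := by
    have h1 := rep_sq π g ζ
    rw [hμ, inner_smul_right, inner_self_eq_norm_sq_to_K] at h1
    have h0 : (‖ζ‖ : ℂ) ≠ 0 := by exact_mod_cast norm_ne_zero_iff.2 hζ0
    push_cast at h1 ⊢
    rw [div_pow, eq_div_iff (pow_ne_zero _ h0)]
    exact h1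
  set ν : ℝ := (‖π g ζ‖ / ‖ζ‖) ^ 2 with hν
  have hν0 : 0 < ν := by have := norm_pos_iff.2 hgζ; have := norm_pos_iff.2 hζ0; positivity
  obtain ⟨f₀, hf₀⟩ : ∃ f, f = ((ν⁻¹ : ℝ) : ℂ) • (star g * g) := ⟨_, rfl⟩
  have hf₀C : f₀ ∈ C := hf₀ ▸ SMulMemClass.smul_mem _ (mul_mem (StarMemClass.star_mem hgC) hgC)
  have hf₀s : star f₀ = f₀ := by simp [hf₀, star_smul]
  have hf₀ζ : π f₀ ζ = ζ := by
    rw [hf₀, map_smul, smul_apply, hμ, hνdef, smul_smul, ← Complex.ofReal_mul,
      inv_mul_cancel₀ hν0.ne', Complex.ofReal_one, one_smul]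
  have hbound : ∀ m, ‖⟪η, ζ⟫_ℂ‖ * √((2:ℝ) ^ m) ≤ ‖ζ‖ * (2 * ‖f₀‖) * ‖η‖ := by
    intro m
    set M := L m with hM
    obtain ⟨i₀, hi₀⟩ : ∃ i₀, ∀ j, j ≠ i₀ → π (M.D j) ζ = 0 := by
      by_cases h : ∃ i, π (M.D i) ζ ≠ 0
      · obtain ⟨i, hi⟩ := h
        refine ⟨i, fun j hj => ?_⟩
        obtain ⟨z, hz⟩ := hζ _ (M.D_mem i)
        obtain ⟨z', hz'⟩ := hζ _ (M.D_mem j)
        have h1 : π (M.D j * M.D i) ζ = 0 := by rw [M.D_orth j i hj]; simp
        rw [rep_mul, hz, map_smul, hz', smul_smul, smul_eq_zero, mul_eq_zero] at h1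
        rw [hz] at hi
        rcases h1 with (h1 | h1) | h1
        · exact absurd (by rw [h1, zero_smul]) hi
        · rw [hz', h1, zero_smul]
        · exact absurd h1 hζ0
      · push Not at h
        exact ⟨Classical.choice M.ne, fun j _ => h j⟩
    set P := ∑ j ∈ Finset.univ.erase i₀, M.D j with hP
    have hPC : P ∈ C := sum_mem fun j _ => M.D_mem j
    have hP1 : ‖P‖ ≤ 1 := norm_sum_orth_selfAdjoint _ _ zero_le_one (fun j _ => M.D_star j)
      (fun i _ j _ hij => M.D_orth i j hij) (fun j _ => M.D_le j)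
    set f := f₀ - f₀ * P with hf
    have hfs : star f = f := by
      rw [hf, star_sub, star_mul, hf₀s, show star P = P by simp [P, star_sum, M.D_star],
        hC.1 _ hPC _ hf₀C]
    have hfζ : π f ζ = ζ := by
      rw [hf, map_sub, sub_apply, rep_mul, hf₀ζ,
        show π P ζ = 0 by
          rw [hP, map_sum, sum_apply]
          exact Finset.sum_eq_zero fun j hj => hi₀ j (Finset.ne_of_mem_erase hj)]
      simp
    have hfn : ∀ j, j ≠ i₀ → f * M.n j = 0 := fun j hj => by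
      have h1 : P * M.n j = M.n j := by
        rw [hP, Finset.sum_mul, Finset.sum_eq_single j (fun l _ hl => by
          rw [← M.D_n j, ← mul_assoc, M.D_orth l j hl, zero_mul]) (fun h => by simp [hj] at h),
          M.D_n]
      rw [hf, sub_mul, mul_assoc, h1, sub_self]
    have hfx : f * M.x = M.k • (f * M.n i₀) := by
      rw [Stage.x, mul_smul_comm, Finset.mul_sum,
        Finset.sum_eq_single i₀ (fun j _ hj => hfn j hj) (by simp)]
    have hnr : ‖M.n i₀ * root M.c‖ ≤ 1 := by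
      have h1 := M.norm_star_mul hC (M.nn i₀)
      rw [CStarRing.norm_star_mul_self] at h1
      nlinarith [norm_nonneg (M.n i₀ * root M.c)]
    have hfn1 : ‖f‖ ≤ 2 * ‖f₀‖ := (norm_sub_le _ _).trans (by
      linarith [(norm_mul_le f₀ P).trans (mul_le_of_le_one_right (norm_nonneg _) hP1)])
    have hk : ‖M.k‖ = (√((2:ℝ) ^ m))⁻¹ := by
      simp only [Stage.k, Complex.norm_real, norm_inv, M, hcard]
      rw [Real.norm_of_nonneg (Real.sqrt_nonneg _)]
      push_cast
      rfl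
    have hfh : ‖f * M.h‖ ≤ 2 * ‖f₀‖ * (√((2:ℝ) ^ m))⁻¹ := by
      rw [Stage.h, M.star_S, ← mul_assoc, ← mul_assoc, hfx, smul_mul_assoc, smul_mul_assoc,
        norm_smul, hk, mul_comm (2 * ‖f₀‖)]
      refine mul_le_mul_of_nonneg_left ((norm_mul_le _ _).trans ?_) (by positivity)
      refine (mul_le_of_le_one_right (norm_nonneg _) (M.norm_S_le hC)).trans ?_
      rw [mul_assoc]
      exact ((norm_mul_le _ _).trans (mul_le_of_le_one_right (norm_nonneg _) hnr)).trans hfn1
    have h2 : ⟪ζ, η⟫_ℂ = ⟪ζ, π (f * M.h) η⟫_ℂ := by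
      rw [rep_mul, ← rep_adj, hfs, hfζ, Stage.h, hfix m]
    have h3 : ‖⟪η, ζ⟫_ℂ‖ ≤ ‖ζ‖ * (2 * ‖f₀‖ * (√((2:ℝ) ^ m))⁻¹ * ‖η‖) := by
      rw [← inner_conj_symm, RCLike.norm_conj, h2]
      refine (norm_inner_le_norm _ _).trans (mul_le_mul_of_nonneg_left ?_ (norm_nonneg _))
      exact ((π _).le_opNorm η).trans (mul_le_mul_of_nonneg_right
        ((NonUnitalStarAlgHom.norm_apply_le π _).trans hfh) (norm_nonneg _))
    have hs : 0 < √((2:ℝ) ^ m) := by positivity
    calc ‖⟪η, ζ⟫_ℂ‖ * √((2:ℝ) ^ m)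
        ≤ ‖ζ‖ * (2 * ‖f₀‖ * (√((2:ℝ) ^ m))⁻¹ * ‖η‖) * √((2:ℝ) ^ m) :=
          mul_le_mul_of_nonneg_right h3 hs.le
      _ = _ := by field_simp
  set B := ‖ζ‖ * (2 * ‖f₀‖) * ‖η‖ with hB
  have hpos : 0 < ‖⟪η, ζ⟫_ℂ‖ := norm_pos_iff.2 hζη
  obtain ⟨m, hm⟩ := pow_unbounded_of_one_lt ((B / ‖⟪η, ζ⟫_ℂ‖) ^ 2) (one_lt_two : (1:ℝ) < 2)
  have h1 : √((2:ℝ) ^ m) ≤ B / ‖⟪η, ζ⟫_ℂ‖ := by
    rw [le_div_iff₀ hpos, mul_comm]
    exact hbound m
  have h2 := pow_le_pow_left₀ (Real.sqrt_nonneg _) h1 2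
  rw [Real.sq_sqrt (by positivity)] at h2
  linarith

end Vale.Agent.P070
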